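import Vale.Agent.P141.H841.Lay

/-!
# P141, line (A): the far layers of the shifted slot

* `cross_count` : few points whose shifted cell of scale `k` crosses the grid of scale `i`;
* `om_far` : the sum of the weights `om` of the layers `i` with `k + L ≤ i`.
-/

namespace Vale.Agent.P141.H876

open Finset
open Vale.Agent.P141.PL (iv ix mem_iv ix_ix card_iv)
open Vale.Agent.P141.H922 (iv_iv)
open Vale.Agent.P141.H841 (om om_nonneg st st_bd ix_bd ix_of)

noncomputable section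

theorem sum_ind_le (S A : Finset ℤ) : ∑ y ∈ S, (if y ∈ A then (1 : ℝ) else 0) ≤ A.card := by
  rw [sum_ite_mem, sum_const, nsmul_eq_mul, mul_one]
  exact_mod_cast card_le_card inter_subset_right

theorem card_Ico_pow (a : ℤ) (k : ℕ) : ((Ico a (a + 2 ^ k)).card : ℝ) = 2 ^ k := by
  rw [Int.card_Ico, add_sub_cancel_left]
  have : ((2 : ℤ) ^ k).toNat = 2 ^ k := by
    have e : ((2 : ℤ) ^ k) = ((2 ^ k : ℕ) : ℤ) := by push_cast; rfl
    rw [e, Int.toNat_natCast]
  rw [this]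
  push_cast
  rfl

/-- a crossing point is near the ends of its own cell -/
theorem cross_near {k i : ℕ} (sh : ℤ) {y : ℤ}
    (h : ix i (st sh k y) ≠ ix i (st sh k y + 2 ^ k)) :
    y < 2 ^ i * ix i y + 2 ^ k ∨ 2 ^ i * ix i y + 2 ^ i - 2 ^ k ≤ y := by
  obtain ⟨t1, t2⟩ := st_bd sh k y
  obtain ⟨a1, a2⟩ := ix_bd i (st sh k y)
  obtain ⟨b1, b2⟩ := ix_bd i (st sh k y + 2 ^ k)
  obtain ⟨c1, c2⟩ := ix_bd i y
  have hp : (0 : ℤ) < 2 ^ i := by positivity
  have hk : (0 : ℤ) < 2 ^ k := by positivity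
  have hle : ix i (st sh k y) ≤ ix i (st sh k y + 2 ^ k) := by
    unfold PL.ix
    exact Int.ediv_le_ediv hp (by linarith)
  have h1 : ix i (st sh k y) + 1 ≤ ix i (st sh k y + 2 ^ k) := by omega
  set q := ix i (st sh k y + 2 ^ k)
  set P : ℤ := 2 ^ i
  have h2 : P * (ix i (st sh k y) + 1) ≤ P * q := mul_le_mul_of_nonneg_left h1 hp.le
  rcases le_or_gt q (ix i y) with hq | hq
  · left
    have h3 : P * q ≤ P * ix i y := mul_le_mul_of_nonneg_left hq hp.le
    linarith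
  · right
    have h3 : P * (ix i y + 1) ≤ P * q := mul_le_mul_of_nonneg_left (by omega) hp.le
    linarith

/-- **Few crossing points.** -/
theorem cross_count {k i n : ℕ} (hi : i ≤ n) (sh M3 : ℤ) :
    ∑ y ∈ iv n M3, (if ix i (st sh k y) = ix i (st sh k y + 2 ^ k) then (0 : ℝ) else 1) ≤
      2 ^ (n - i) * (2 * 2 ^ k) := by
  rw [← iv_iv hi]
  have h1 : ∀ c ∈ iv (n - i) M3, ∑ y ∈ iv i c,
      (if ix i (st sh k y) = ix i (st sh k y + 2 ^ k) then (0 : ℝ) else 1) ≤ 2 * 2 ^ k := by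
    intro c _
    have h2 : ∀ y ∈ iv i c, (if ix i (st sh k y) = ix i (st sh k y + 2 ^ k) then (0 : ℝ) else 1) ≤
        (if y ∈ Ico (2 ^ i * c) (2 ^ i * c + 2 ^ k) then (1 : ℝ) else 0) +
        (if y ∈ Ico (2 ^ i * c + 2 ^ i - 2 ^ k) (2 ^ i * c + 2 ^ i - 2 ^ k + 2 ^ k)
          then (1 : ℝ) else 0) := by
      intro y hy
      rw [mem_iv] at hy
      obtain ⟨c1, c2⟩ := ix_bd i y
      rw [hy] at c1 c2
      by_cases h : ix i (st sh k y) = ix i (st sh k y + 2 ^ k)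
      · rw [if_pos h]
        split_ifs <;> norm_num
      · rw [if_neg h]
        rcases cross_near sh h with h3 | h3
        · rw [hy] at h3
          rw [if_pos (mem_Ico.2 ⟨c1, h3⟩)]
          split_ifs <;> norm_num
        · rw [hy] at h3
          rw [if_pos (mem_Ico.2 ⟨h3, by linarith⟩ :
            y ∈ Ico (2 ^ i * c + 2 ^ i - 2 ^ k) (2 ^ i * c + 2 ^ i - 2 ^ k + 2 ^ k))]
          split_ifs <;> norm_num
    refine (sum_le_sum h2).trans ?_
    rw [sum_add_distrib]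
    refine (add_le_add (sum_ind_le _ _) (sum_ind_le _ _)).trans (le_of_eq ?_)
    rw [card_Ico_pow, card_Ico_pow]
    ring
  refine (sum_le_sum h1).trans (le_of_eq ?_)
  rw [sum_const, card_iv, nsmul_eq_mul]
  push_cast
  ring

theorem tail_sum (L N : ℕ) :
    ∑ d ∈ Ico L N, ((d : ℝ) + 1) ^ 2 * ((2 : ℝ) ^ d)⁻¹ ≤ 2 * (((L : ℝ) + 2) ^ 2 + 2) / 2 ^ L := by
  rcases le_or_gt L N with h | h
  · have h1 : ∀ M : ℕ, ∑ d ∈ Ico L (L + M), ((d : ℝ) + 1) ^ 2 * ((2 : ℝ) ^ d)⁻¹ =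
        2 * (((L : ℝ) + 2) ^ 2 + 2) / 2 ^ L -
          2 * ((((L + M : ℕ) : ℝ) + 2) ^ 2 + 2) / 2 ^ (L + M) := by
      intro M
      induction M with
      | zero => simp
      | succ M ih =>
        rw [← add_assoc, sum_Ico_succ_top (by omega), ih, pow_succ]
        have hp : (0 : ℝ) < 2 ^ (L + M) := by positivity
        push_cast
        field_simp
        ring
    obtain ⟨M, rfl⟩ := Nat.exists_eq_add_of_le h
    rw [h1]
    have : (0 : ℝ) ≤ 2 * ((((L + M : ℕ) : ℝ) + 2) ^ 2 + 2) / 2 ^ (L + M) := by positivity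
    linarith
  · rw [Ico_eq_empty (by omega), sum_empty]
    positivity

/-- **The far layers.** -/
theorem om_far (n L : ℕ) (sh M3 : ℤ) {b : ℕ → ℝ} (hb : ∀ i, 0 ≤ b i) :
    ∑ y ∈ iv n M3, ∑ k ∈ range (n + 1), ∑ i ∈ range n,
      (if k + L ≤ i then om sh k i y * b i else 0) ≤
      32 * 2 ^ n * (((L : ℝ) + 2) ^ 2 + 2) / 2 ^ L * ∑ i ∈ range n, b i := by
  have e1 : ∑ y ∈ iv n M3, ∑ k ∈ range (n + 1), ∑ i ∈ range n,
      (if k + L ≤ i then om sh k i y * b i else 0) =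
      ∑ i ∈ range n, ∑ k ∈ range (n + 1), ∑ y ∈ iv n M3,
        (if k + L ≤ i then om sh k i y * b i else 0) := by
    rw [sum_comm]
    rw [sum_congr rfl fun k _ => sum_comm]
    exact sum_comm
  rw [e1, mul_sum]
  refine sum_le_sum fun i hi => ?_
  rw [mem_range] at hi
  have e2 : ∀ k ∈ range (n + 1), ∑ y ∈ iv n M3, (if k + L ≤ i then om sh k i y * b i else 0) ≤
      16 * 2 ^ n * b i *
        (if k + L ≤ i then (((i - k : ℕ) : ℝ) + 1) ^ 2 * ((2 : ℝ) ^ (i - k))⁻¹ else 0) := by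
    intro k _
    by_cases h : k + L ≤ i
    · simp only [if_pos h]
      have h1 : ∀ y ∈ iv n M3, om sh k i y * b i = 8 * (((i - k : ℕ) : ℝ) + 1) ^ 2 * b i *
          (if ix i (st sh k y) = ix i (st sh k y + 2 ^ k) then (0 : ℝ) else 1) := by
        intro y _
        unfold H841.om
        rw [if_neg (by omega : ¬ i < k)]
        have : i + 1 - k = i - k + 1 := by omega
        rw [this]
        split_ifs
        · ring
        · push_cast; ring
      rw [sum_congr rfl h1, ← mul_sum]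
      have h0 : 0 ≤ 8 * (((i - k : ℕ) : ℝ) + 1) ^ 2 * b i := mul_nonneg (by positivity) (hb i)
      refine (mul_le_mul_of_nonneg_left (cross_count hi.le sh M3) h0).trans (le_of_eq ?_)
      have e3 : (2 : ℝ) ^ n = 2 ^ (n - i) * 2 ^ (i - k) * 2 ^ k := by
        rw [← pow_add, ← pow_add]
        congr 1
        omega
      rw [e3]
      have hp : (2 : ℝ) ^ (i - k) ≠ 0 := by positivity
      field_simp
      ring
    · simp only [if_neg h, sum_const_zero, mul_zero, le_refl]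
  refine (sum_le_sum e2).trans ?_
  rw [← mul_sum, ← sum_filter]
  have e4 : ∑ k ∈ (range (n + 1)).filter (fun k => k + L ≤ i),
      (((i - k : ℕ) : ℝ) + 1) ^ 2 * ((2 : ℝ) ^ (i - k))⁻¹ ≤
      ∑ d ∈ Ico L (i + 1), ((d : ℝ) + 1) ^ 2 * ((2 : ℝ) ^ d)⁻¹ := by
    have e5 : ∑ k ∈ (range (n + 1)).filter (fun k => k + L ≤ i),
        (((i - k : ℕ) : ℝ) + 1) ^ 2 * ((2 : ℝ) ^ (i - k))⁻¹ =
        ∑ d ∈ ((range (n + 1)).filter (fun k => k + L ≤ i)).image (fun k => i - k),
          ((d : ℝ) + 1) ^ 2 * ((2 : ℝ) ^ d)⁻¹ := by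
      rw [sum_image]
      intro a ha c hc hac
      have h1 := (mem_filter.1 ha).2
      have h2 := (mem_filter.1 hc).2
      simp only at hac
      omega
    rw [e5]
    refine sum_le_sum_of_subset_of_nonneg (fun d hd => ?_) fun d _ _ => by positivity
    obtain ⟨k, hk, rfl⟩ := mem_image.1 hd
    have h1 := (mem_filter.1 hk).2
    rw [mem_Ico]
    omega
  have h5 := e4.trans (tail_sum L (i + 1))
  refine (mul_le_mul_of_nonneg_left h5 (mul_nonneg (by positivity) (hb i))).trans (le_of_eq ?_)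
  ring

end

end Vale.Agent.P141.H876
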