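import Vale.Agent.P141.H876.WinS
import Vale.Agent.P141.H876.OmFar
import Vale.Agent.P141.H210.ShSumQ

/-!
# P141, line (A): the moving slot on a shifted grid, parts (S1) and (S2)

Letters of `H841.Lay`.  `Q` is any bound of the energies of all the layers (`hX`), for instance
`H876.En_sumQ`; `th` bounds the norms of the matrices; `W` is a weight with bounded averages on the
cells of `x₀`.

* `S1` : the deviation of the slot on the shifted grid from the slot on the standard grid;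
* `S2` : the half differences of the slot on the shifted grid.
-/

namespace Vale.Agent.P141.H876

open Finset Matrix
open Vale.Agent.P141.PL (iv ix hs mem_iv ix_ix card_iv)
open Vale.Agent.P141.H922 (ck iv_iv)
open Vale.Agent.P141.H43 (avv nsq nsq_nonneg)
open Vale.Agent.P141.H841 (Lm Rm Rs Nn Nn_nonneg om om_nonneg st st_bd dev_le Lm_le nsq_add_le
  nsq_sub_le)

noncomputable section

variable {ι : Type*} [Fintype ι]

variable {Mx : ℕ → ℤ → Matrix ι ι ℝ} {o x1 T M3 : ℤ} {n : ℕ} {s : ℕ → ℤ → ℤ → ℝ}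

/-- one point `y`, one scale: the weighted sum over `x₀` -/
theorem dev_sum (hs1 : ∀ k a b, |s k a b| ≤ 1) (ho : o = 1 ∨ o = -1) {W : ℤ → ℝ} {e : ℝ} {k : ℕ}
    (hk : k ≤ n) (hW0 : ∀ x, 0 ≤ W x) (hW : ∀ j, ∑ x ∈ iv k j, W x ≤ e * 2 ^ k) (sh : ℤ) {y : ℤ}
    (hy : y ∈ iv n M3) (w : ι → ℝ) :
    ∑ x0 ∈ iv n T, W x0 *
        nsq ((Rs Mx o x1 s n sh k x0 (ix k (y - sh)) - Rm Mx o x1 s n k x0 y) *ᵥ w) ≤
      2 * e * ∑ i ∈ range n, om sh k i y * 2 ^ (k - (i + 1)) * En Mx n T x1 M3 (i + 1) w := by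
  obtain ⟨t1, t2⟩ := st_bd sh k y
  rw [mem_iv] at hy
  obtain ⟨a1, a2⟩ := near_root hk (p := st sh k y) (y := y) (by linarith)
    (by have : (0 : ℤ) < 2 ^ k := by positivity
        linarith)
  obtain ⟨b1, b2⟩ := near_root hk (p := st sh k y + 2 ^ k) (y := y)
    (by have : (0 : ℤ) < 2 ^ k := by positivity
        linarith) (by linarith)
  rw [hy] at a1 a2 b1 b2
  have e1 : ∀ x0 ∈ iv n T, W x0 *
      nsq ((Rs Mx o x1 s n sh k x0 (ix k (y - sh)) - Rm Mx o x1 s n k x0 y) *ᵥ w) ≤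
      ∑ i ∈ range n, om sh k i y * (W x0 * Nn Mx o x1 (i + 1) x0 (st sh k y) w +
        W x0 * Nn Mx o x1 (i + 1) x0 (st sh k y + 2 ^ k) w) := by
    intro x0 _
    refine (mul_le_mul_of_nonneg_left (dev_le hs1 n sh hk x0 y w) (hW0 x0)).trans (le_of_eq ?_)
    rw [mul_sum]
    exact sum_congr rfl fun i _ => by ring
  refine (sum_le_sum e1).trans ?_
  rw [sum_comm, mul_sum]
  refine sum_le_sum fun i hi => ?_
  rw [mem_range] at hi
  rw [← mul_sum, sum_add_distrib]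
  have c1 := wt_Nn (Mx := Mx) (x1 := x1) (T := T) ho hW0 hW (i := i + 1) (by omega) a1 a2 w
  have c2 := wt_Nn (Mx := Mx) (x1 := x1) (T := T) ho hW0 hW (i := i + 1) (by omega) b1 b2 w
  refine (mul_le_mul_of_nonneg_left (add_le_add c1 c2) (om_nonneg sh k i y)).trans (le_of_eq ?_)
  ring

/-- **(S1)** : the deviation of the slot on the shifted grid. -/
theorem S1 (hs1 : ∀ k a b, |s k a b| ≤ 1) (ho : o = 1 ∨ o = -1) {Q : (ι → ℝ) → ℝ}
    (hX : ∀ a, ∑ i ∈ range n, En Mx n T x1 M3 (i + 1) a ≤ 2 ^ n * Q a)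
    {W : ℕ → ℤ → ℤ → ℝ} {e : ℝ} (he : 0 ≤ e) (hW0 : ∀ k x0 y, 0 ≤ W k x0 y)
    (hW : ∀ k ≤ n, ∀ j y, ∑ x0 ∈ iv k j, W k x0 y ≤ e * 2 ^ k)
    {θ : ℕ → ℤ → ℝ} (hθ0 : ∀ k m, 0 ≤ θ k m)
    (hθ : ∀ k m a, nsq (Mx k m *ᵥ a) ≤ θ k m * nsq a) {Θ : ℝ}
    (hΘ : ∑ i ∈ range n, 2 ^ (i + 1) * ∑ R ∈ wn n T x1 M3, ∑ m ∈ iv (n - (i + 1)) R, θ (i + 1) m ≤
      Θ * 2 ^ n) {v : ℤ → ι → ℝ} {V : ℝ} (hV : ∀ y ∈ iv n M3, nsq (v y) ≤ V) (L : ℕ) (sh : ℤ) :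
    ∑ y ∈ iv n M3, ∑ k ∈ range (n + 1), ∑ x0 ∈ iv n T, W k x0 y *
        nsq ((Rs Mx o x1 s n sh k x0 (ix k (y - sh)) - Rm Mx o x1 s n k x0 y) *ᵥ v y) ≤
      e * ((48 + 16 * (L : ℝ) ^ 3) * (2 ^ n * ∑ y ∈ iv n M3, Q (v y)) +
        64 * (((L : ℝ) + 2) ^ 2 + 2) / 2 ^ L * (V * Θ * 4 ^ n)) := by
  have hV0 : ∀ y ∈ iv n M3, 0 ≤ V := fun y hy => (nsq_nonneg _).trans (hV y hy)
  have hVV : 0 ≤ V := by
    refine hV0 (2 ^ n * M3) ?_
    unfold PL.iv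
    rw [mem_Ico]
    have : (0 : ℤ) < 2 ^ n := by positivity
    constructor <;> linarith
  set b : ℕ → ℝ := fun i => (2 ^ (i + 1) * ∑ R ∈ wn n T x1 M3,
    ∑ m ∈ iv (n - (i + 1)) R, θ (i + 1) m) * V with hb
  have hb0 : ∀ i, 0 ≤ b i := fun i => mul_nonneg (mul_nonneg (by positivity)
    (sum_nonneg fun _ _ => sum_nonneg fun _ _ => hθ0 _ _)) hVV
  have hbs : ∑ i ∈ range n, b i ≤ V * Θ * 2 ^ n := by
    rw [hb, ← sum_mul]
    calc _ ≤ (Θ * 2 ^ n) * V := mul_le_mul_of_nonneg_right hΘ hVV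
      _ = _ := by ring
  have e1 : ∀ y ∈ iv n M3, ∀ k ∈ range (n + 1), ∑ x0 ∈ iv n T, W k x0 y *
      nsq ((Rs Mx o x1 s n sh k x0 (ix k (y - sh)) - Rm Mx o x1 s n k x0 y) *ᵥ v y) ≤
      2 * e * (∑ i ∈ range n, (if i + 1 ≤ k + L then
          om sh k i y * 2 ^ (k - (i + 1)) * En Mx n T x1 M3 (i + 1) (v y) else 0) +
        ∑ i ∈ range n, (if k + L ≤ i then om sh k i y * b i else 0)) := by
    intro y hy k hk
    rw [mem_range] at hk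
    refine (dev_sum hs1 ho (by omega) (fun x => hW0 k x y) (fun j => hW k (by omega) j y) sh hy
      (v y)).trans ?_
    refine mul_le_mul_of_nonneg_left ?_ (by positivity)
    rw [← sum_add_distrib]
    refine sum_le_sum fun i _ => ?_
    by_cases h : i + 1 ≤ k + L
    · rw [if_pos h, if_neg (by omega), add_zero]
    · rw [if_neg h, if_pos (by omega), zero_add]
      have e2 : k - (i + 1) = 0 := by omega
      rw [e2, pow_zero, mul_one]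
      refine mul_le_mul_of_nonneg_left ?_ (om_nonneg sh k i y)
      refine (En_th hθ (i + 1) (v y)).trans ?_
      exact mul_le_mul_of_nonneg_left (hV y hy) (mul_nonneg (by positivity)
        (sum_nonneg fun _ _ => sum_nonneg fun _ _ => hθ0 _ _))
  refine (sum_le_sum fun y hy => sum_le_sum fun k hk => e1 y hy k hk).trans ?_
  simp only [← mul_sum, sum_add_distrib]
  have f1 : ∑ y ∈ iv n M3, ∑ k ∈ range (n + 1), ∑ i ∈ range n, (if i + 1 ≤ k + L then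
      om sh k i y * 2 ^ (k - (i + 1)) * En Mx n T x1 M3 (i + 1) (v y) else 0) ≤
      (24 + 8 * (L : ℝ) ^ 3) * (2 ^ n * ∑ y ∈ iv n M3, Q (v y)) := by
    rw [mul_sum, mul_sum]
    refine sum_le_sum fun y _ => ?_
    refine (H210.near_E n L sh y (E := fun i => En Mx n T x1 M3 (i + 1) (v y))
      fun i => En_nonneg _ _).trans ?_
    exact mul_le_mul_of_nonneg_left (hX (v y)) (by positivity)
  have f2 := om_far n L sh M3 hb0
  have f3 : 32 * 2 ^ n * (((L : ℝ) + 2) ^ 2 + 2) / 2 ^ L * ∑ i ∈ range n, b i ≤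
      32 * (((L : ℝ) + 2) ^ 2 + 2) / 2 ^ L * (V * Θ * 4 ^ n) := by
    refine (mul_le_mul_of_nonneg_left hbs (by positivity)).trans (le_of_eq ?_)
    have e4 : (4 : ℝ) ^ n = 2 ^ n * 2 ^ n := by rw [← mul_pow]; norm_num
    rw [e4]
    ring
  have f4 := add_le_add f1 (f2.trans f3)
  refine (mul_le_mul_of_nonneg_left f4 (by positivity : 0 ≤ 2 * e)).trans (le_of_eq ?_)
  ring

/-- **(S2)** : the half differences of the slot on the shifted grid. -/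
theorem S2 (hs1 : ∀ k a b, |s k a b| ≤ 1) (ho : o = 1 ∨ o = -1) {Q : (ι → ℝ) → ℝ}
    (hX : ∀ a, ∑ i ∈ range n, En Mx n T x1 M3 (i + 1) a ≤ 2 ^ n * Q a)
    {W : ℕ → ℤ → ℤ → ℝ} {e : ℝ} (he : 0 ≤ e) (hW0 : ∀ k x0 y, 0 ≤ W k x0 y)
    (hW : ∀ k ≤ n, ∀ j y, ∑ x0 ∈ iv k j, W k x0 y ≤ e * 2 ^ k)
    {θ : ℕ → ℤ → ℝ} (hθ0 : ∀ k m, 0 ≤ θ k m)
    (hθ : ∀ k m a, nsq (Mx k m *ᵥ a) ≤ θ k m * nsq a) {Θ : ℝ}
    (hΘ : ∑ i ∈ range n, 2 ^ (i + 1) * ∑ R ∈ wn n T x1 M3, ∑ m ∈ iv (n - (i + 1)) R, θ (i + 1) m ≤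
      Θ * 2 ^ n) {v : ℤ → ι → ℝ} {V : ℝ} (hV : ∀ y ∈ iv n M3, nsq (v y) ≤ V) (L : ℕ) (sh : ℤ) :
    ∑ y ∈ iv n M3, ∑ k ∈ range n, ∑ x0 ∈ iv n T, W k x0 y *
        nsq ((Rs Mx o x1 s n sh k x0 (ix k (y - sh)) -
          Rs Mx o x1 s n sh (k + 1) x0 (ix (k + 1) (y - sh))) *ᵥ v y) ≤
      e * ((386 + 128 * (L : ℝ) ^ 3) * (2 ^ n * ∑ y ∈ iv n M3, Q (v y)) +
        512 * (((L : ℝ) + 2) ^ 2 + 2) / 2 ^ L * (V * Θ * 4 ^ n)) := by
  set D : ℕ → ℤ → ℤ → ℝ := fun k x0 y =>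
    nsq ((Rs Mx o x1 s n sh k x0 (ix k (y - sh)) - Rm Mx o x1 s n k x0 y) *ᵥ v y) with hD
  have hD0 : ∀ k x0 y, 0 ≤ D k x0 y := fun _ _ _ => nsq_nonneg _
  have p1 : ∀ k < n, ∀ x0 y, nsq ((Rs Mx o x1 s n sh k x0 (ix k (y - sh)) -
      Rs Mx o x1 s n sh (k + 1) x0 (ix (k + 1) (y - sh))) *ᵥ v y) ≤
      4 * D k x0 y + 4 * D (k + 1) x0 y + 2 * Nn Mx o x1 (k + 1) x0 y (v y) := by
    intro k hk x0 y
    have e1 : (Rs Mx o x1 s n sh k x0 (ix k (y - sh)) -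
        Rs Mx o x1 s n sh (k + 1) x0 (ix (k + 1) (y - sh))) *ᵥ v y =
        ((Rs Mx o x1 s n sh k x0 (ix k (y - sh)) - Rm Mx o x1 s n k x0 y) *ᵥ v y -
        (Rs Mx o x1 s n sh (k + 1) x0 (ix (k + 1) (y - sh)) - Rm Mx o x1 s n (k + 1) x0 y) *ᵥ v y) +
        Lm Mx o x1 s (k + 1) x0 y *ᵥ v y := by
      have e2 : Rm Mx o x1 s n k x0 y = Lm Mx o x1 s (k + 1) x0 y + Rm Mx o x1 s n (k + 1) x0 y := by
        unfold H841.Rm
        rw [sum_eq_sum_Ico_succ_bot hk]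
      rw [e2]
      simp only [sub_mulVec, add_mulVec]
      abel
    rw [e1]
    have h1 := nsq_add_le ((Rs Mx o x1 s n sh k x0 (ix k (y - sh)) - Rm Mx o x1 s n k x0 y) *ᵥ v y -
        (Rs Mx o x1 s n sh (k + 1) x0 (ix (k + 1) (y - sh)) - Rm Mx o x1 s n (k + 1) x0 y) *ᵥ v y)
        (Lm Mx o x1 s (k + 1) x0 y *ᵥ v y)
    have h2 := nsq_sub_le ((Rs Mx o x1 s n sh k x0 (ix k (y - sh)) - Rm Mx o x1 s n k x0 y) *ᵥ v y)
        ((Rs Mx o x1 s n sh (k + 1) x0 (ix (k + 1) (y - sh)) - Rm Mx o x1 s n (k + 1) x0 y) *ᵥ v y)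
    have h3 := Lm_le (Mx := Mx) (o := o) (x1 := x1) hs1 (k + 1) x0 y (v y)
    simp only [hD]
    linarith
  set W' : ℕ → ℤ → ℤ → ℝ := fun k x0 y => if k = 0 then 0 else W (k - 1) x0 y with hW'
  have hW0' : ∀ k x0 y, 0 ≤ W' k x0 y := by
    intro k x0 y
    simp only [hW']
    split_ifs
    · exact le_rfl
    · exact hW0 _ _ _
  have hWs' : ∀ k ≤ n, ∀ j y, ∑ x0 ∈ iv k j, W' k x0 y ≤ e * 2 ^ k := by
    intro k hk j y
    rcases k with _ | k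
    · simp only [hW', if_true, sum_const_zero]
      positivity
    · have e1 : ∀ x0, W' (k + 1) x0 y = W k x0 y := fun x0 => by
        simp only [hW', Nat.succ_ne_zero, if_false, Nat.add_sub_cancel]
      simp only [e1]
      have h := wt_cell (fun x => hW0 k x y) (fun j => hW k (by omega) j y) (k + 1) j
      have e2 : k - (k + 1) = 0 := by omega
      rw [e2, pow_zero, mul_one] at h
      exact h
  have q1 := S1 hs1 ho hX he hW0 hW hθ0 hθ hΘ hV L sh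
  have q2 := S1 hs1 ho hX he hW0' hWs' hθ0 hθ hΘ hV L sh
  have q1' : ∑ y ∈ iv n M3, ∑ k ∈ range n, ∑ x0 ∈ iv n T, W k x0 y * D k x0 y ≤
      ∑ y ∈ iv n M3, ∑ k ∈ range (n + 1), ∑ x0 ∈ iv n T, W k x0 y * D k x0 y := by
    refine sum_le_sum fun y _ => ?_
    rw [sum_range_succ]
    have : 0 ≤ ∑ x0 ∈ iv n T, W n x0 y * D n x0 y :=
      sum_nonneg fun x _ => mul_nonneg (hW0 _ _ _) (hD0 _ _ _)
    linarith
  have q2' : ∑ y ∈ iv n M3, ∑ k ∈ range n, ∑ x0 ∈ iv n T, W k x0 y * D (k + 1) x0 y ≤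
      ∑ y ∈ iv n M3, ∑ k ∈ range (n + 1), ∑ x0 ∈ iv n T, W' k x0 y * D k x0 y := by
    refine sum_le_sum fun y _ => ?_
    rw [sum_range_succ']
    have h1 : 0 ≤ ∑ x0 ∈ iv n T, W' 0 x0 y * D 0 x0 y :=
      sum_nonneg fun x _ => mul_nonneg (hW0' _ _ _) (hD0 _ _ _)
    have h2 : ∑ k ∈ range n, ∑ x0 ∈ iv n T, W k x0 y * D (k + 1) x0 y =
        ∑ k ∈ range n, ∑ x0 ∈ iv n T, W' (k + 1) x0 y * D (k + 1) x0 y := by
      refine sum_congr rfl fun k _ => sum_congr rfl fun x _ => ?_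
      simp only [hW', Nat.succ_ne_zero, if_false, Nat.add_sub_cancel]
    rw [h2]
    linarith
  have q3 : ∑ y ∈ iv n M3, ∑ k ∈ range n, ∑ x0 ∈ iv n T,
      W k x0 y * Nn Mx o x1 (k + 1) x0 y (v y) ≤ e * (2 ^ n * ∑ y ∈ iv n M3, Q (v y)) := by
    rw [mul_sum, mul_sum]
    refine sum_le_sum fun y hy => ?_
    rw [mem_iv] at hy
    have h5 : ∀ k ∈ range n, ∑ x0 ∈ iv n T, W k x0 y * Nn Mx o x1 (k + 1) x0 y (v y) ≤
        e * En Mx n T x1 M3 (k + 1) (v y) := by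
      intro k hk
      rw [mem_range] at hk
      have h := wt_Nn (Mx := Mx) (x1 := x1) (T := T) (M3 := M3) ho (fun x => hW0 k x y)
        (fun j => hW k hk.le j y) (i := k + 1) hk (p := y) (by omega) (by omega) (v y)
      have e2 : k - (k + 1) = 0 := by omega
      rw [e2, pow_zero, mul_one] at h
      exact h
    refine (sum_le_sum h5).trans ?_
    rw [← mul_sum]
    exact mul_le_mul_of_nonneg_left (hX (v y)) he
  refine (sum_le_sum fun y _ => sum_le_sum fun k hk => sum_le_sum fun x0 _ =>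
    mul_le_mul_of_nonneg_left (p1 k (mem_range.1 hk) x0 y) (hW0 k x0 y)).trans ?_
  have e5 : ∑ y ∈ iv n M3, ∑ k ∈ range n, ∑ x0 ∈ iv n T, W k x0 y *
      (4 * D k x0 y + 4 * D (k + 1) x0 y + 2 * Nn Mx o x1 (k + 1) x0 y (v y)) =
      4 * (∑ y ∈ iv n M3, ∑ k ∈ range n, ∑ x0 ∈ iv n T, W k x0 y * D k x0 y) +
      4 * (∑ y ∈ iv n M3, ∑ k ∈ range n, ∑ x0 ∈ iv n T, W k x0 y * D (k + 1) x0 y) +
      2 * ∑ y ∈ iv n M3, ∑ k ∈ range n, ∑ x0 ∈ iv n T,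
        W k x0 y * Nn Mx o x1 (k + 1) x0 y (v y) := by
    simp only [mul_sum, ← sum_add_distrib]
    refine sum_congr rfl fun y _ => sum_congr rfl fun k _ => sum_congr rfl fun x0 _ => ?_
    ring
  rw [e5]
  have r1 := q1'.trans q1
  have r2 := q2'.trans q2
  refine (add_le_add (add_le_add (mul_le_mul_of_nonneg_left r1 (by norm_num : (0 : ℝ) ≤ 4))
    (mul_le_mul_of_nonneg_left r2 (by norm_num : (0 : ℝ) ≤ 4)))
    (mul_le_mul_of_nonneg_left q3 (by norm_num : (0 : ℝ) ≤ 2))).trans (le_of_eq ?_)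
  ring

end

end Vale.Agent.P141.H876
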