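import Vale.Agent.P141.H876.WinS
import Vale.Agent.P141.H210.ShSumQ
import Vale.Agent.P141.H444.FibD

/-!
# P141, line (A): the moving slot on a shifted grid, one point, live scales

Letters of `H841.Lay`, `H841.Far`, `H444.FD`.  The weight `W k` vanishes unless the scale `k` is
live at the point `y`; live scales are closed upwards.

* `S1y` : the deviation of the slot on the shifted grid from the slot on the standard grid;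
* `S0y` : the slot of scale `k` on the standard grid against the scale `k + 1` on the shifted grid;
* `S2y` : the half differences of the slot on the shifted grid;
* `S1a`, `S0a`, `S2a` : the same summed over the root cell, for a function with small live fibres.
-/

namespace Vale.Agent.P141.H876

open Finset Matrix
open Vale.Agent.P141.PL (iv ix hs mem_iv ix_ix card_iv)
open Vale.Agent.P141.H922 (ck iv_iv)
open Vale.Agent.P141.H43 (avv nsq nsq_nonneg)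
open Vale.Agent.P141.H841 (Lm Rm Rs Nn Nn_nonneg om om_nonneg st st_bd dev_le Lm_le nsq_add_le
  nsq_sub_le ep ep_nonneg Nrb)
open Vale.Agent.P141.H444.FD (farA farA_nonneg farA_sum)

noncomputable section

open scoped Classical

variable {ι : Type*} [Fintype ι]

variable {Mx : ℕ → ℤ → Matrix ι ι ℝ} {o x1 T M3 : ℤ} {n : ℕ} {s : ℕ → ℤ → ℤ → ℝ}

/-- one point `y`, one scale: the weighted sum over `x₀` -/
theorem dev_sumY (hs1 : ∀ k a b, |s k a b| ≤ 1) (ho : o = 1 ∨ o = -1) {W : ℤ → ℝ} {e : ℝ} {k : ℕ}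
    (hk : k ≤ n) (hW0 : ∀ x, 0 ≤ W x) (hW : ∀ j, ∑ x ∈ iv k j, W x ≤ e * 2 ^ k) (sh : ℤ) {y : ℤ}
    (hy : y ∈ iv n M3) (w : ι → ℝ) :
    ∑ x0 ∈ iv n T, W x0 *
        nsq ((Rs Mx o x1 s n sh k x0 (ix k (y - sh)) - Rm Mx o x1 s n k x0 y) *ᵥ w) ≤
      2 * e * ∑ i ∈ range n, om sh k i y * 2 ^ (k - (i + 1)) * En Mx n T x1 M3 (i + 1) w := by
  obtain ⟨t1, t2⟩ := st_bd sh k y
  rw [mem_iv] at hy
  obtain ⟨a1, a2⟩ := near_root hk (p := st sh k y) (y := y) (by linarith)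
    (by have : (0 : ℤ) < 2 ^ k := by positivity
        linarith)
  obtain ⟨b1, b2⟩ := near_root hk (p := st sh k y + 2 ^ k) (y := y)
    (by have : (0 : ℤ) < 2 ^ k := by positivity
        linarith) (by linarith)
  rw [hy] at a1 a2 b1 b2
  have e1 : ∀ x0 ∈ iv n T, W x0 *
      nsq ((Rs Mx o x1 s n sh k x0 (ix k (y - sh)) - Rm Mx o x1 s n k x0 y) *ᵥ w) ≤
      ∑ i ∈ range n, om sh k i y * (W x0 * Nn Mx o x1 (i + 1) x0 (st sh k y) w +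
        W x0 * Nn Mx o x1 (i + 1) x0 (st sh k y + 2 ^ k) w) := by
    intro x0 _
    refine (mul_le_mul_of_nonneg_left (dev_le hs1 n sh hk x0 y w) (hW0 x0)).trans (le_of_eq ?_)
    rw [mul_sum]
    exact sum_congr rfl fun i _ => by ring
  refine (sum_le_sum e1).trans ?_
  rw [sum_comm, mul_sum]
  refine sum_le_sum fun i hi => ?_
  rw [mem_range] at hi
  rw [← mul_sum, sum_add_distrib]
  have c1 := wt_Nn (Mx := Mx) (x1 := x1) (T := T) ho hW0 hW (i := i + 1) (by omega) a1 a2 w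
  have c2 := wt_Nn (Mx := Mx) (x1 := x1) (T := T) ho hW0 hW (i := i + 1) (by omega) b1 b2 w
  refine (mul_le_mul_of_nonneg_left (add_le_add c1 c2) (om_nonneg sh k i y)).trans (le_of_eq ?_)
  ring

/-- the far part of every shift, live scales -/
theorem om_farA (n L : ℕ) (sh : ℤ) {b : ℕ → ℝ} (hb : ∀ i, 0 ≤ b i) (al : ℕ → ℤ → Prop) (y : ℤ) :
    ∑ k ∈ range (n + 1), ∑ i ∈ range n,
      (if k + L ≤ i ∧ al k y then om sh k i y * b i else 0) ≤ farA n L b al y := by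
  unfold H444.FD.farA
  refine sum_le_sum fun k _ => sum_le_sum fun i _ => ?_
  by_cases h : k + L ≤ i ∧ al k y
  · rw [if_pos h, H690.om_stg (by omega)]
    by_cases hc : ix i (st sh k y) = ix i (st sh k y + 2 ^ k)
    · unfold H690.stg
      rw [if_pos hc, mul_zero, zero_mul]
      split_ifs
      · exact mul_nonneg (by positivity) (hb i)
      · exact le_rfl
    · have h2 : Nrb k i y := H690.stg_near hc
      unfold H690.stg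
      rw [if_neg hc, if_pos ⟨h.1, h2, h.2⟩, mul_one]
  · rw [if_neg h, if_neg fun h' => h ⟨h'.1, h'.2.2⟩]

/-- **(S1), one point.** -/
theorem S1y (hs1 : ∀ k a b, |s k a b| ≤ 1) (ho : o = 1 ∨ o = -1) {w : ι → ℝ} {q : ℝ}
    (hX : ∑ i ∈ range n, En Mx n T x1 M3 (i + 1) w ≤ q)
    {W : ℕ → ℤ → ℝ} {e : ℝ} (he : 0 ≤ e) (hW0 : ∀ k x0, 0 ≤ W k x0)
    (hW : ∀ k ≤ n, ∀ j, ∑ x0 ∈ iv k j, W k x0 ≤ e * 2 ^ k)
    {θ : ℕ → ℤ → ℝ} (hθ0 : ∀ k m, 0 ≤ θ k m)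
    (hθ : ∀ k m a, nsq (Mx k m *ᵥ a) ≤ θ k m * nsq a) (al : ℕ → ℤ → Prop) (L : ℕ) (sh : ℤ)
    {y : ℤ} (hy : y ∈ iv n M3) (hal : ∀ k ≤ n, ¬ al k y → ∀ x0, W k x0 = 0) :
    ∑ k ∈ range (n + 1), ∑ x0 ∈ iv n T, W k x0 *
        nsq ((Rs Mx o x1 s n sh k x0 (ix k (y - sh)) - Rm Mx o x1 s n k x0 y) *ᵥ w) ≤
      2 * e * ((24 + 8 * (L : ℝ) ^ 3) * q + farA n L (ep θ n T x1 M3) al y * nsq w) := by
  set b : ℕ → ℝ := ep θ n T x1 M3 with hb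
  have hb0 : ∀ i, 0 ≤ b i := fun i => ep_nonneg hθ0 n T x1 M3 i
  have e1 : ∀ k ∈ range (n + 1), ∑ x0 ∈ iv n T, W k x0 *
      nsq ((Rs Mx o x1 s n sh k x0 (ix k (y - sh)) - Rm Mx o x1 s n k x0 y) *ᵥ w) ≤
      2 * e * (∑ i ∈ range n, (if i + 1 ≤ k + L then
          om sh k i y * 2 ^ (k - (i + 1)) * En Mx n T x1 M3 (i + 1) w else 0) +
        (∑ i ∈ range n, (if k + L ≤ i ∧ al k y then om sh k i y * b i else 0)) * nsq w) := by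
    intro k hk
    rw [mem_range] at hk
    by_cases hk2 : al k y
    · refine (dev_sumY hs1 ho (by omega) (fun x => hW0 k x) (fun j => hW k (by omega) j) sh hy
        w).trans ?_
      refine mul_le_mul_of_nonneg_left ?_ (by positivity)
      rw [sum_mul, ← sum_add_distrib]
      refine sum_le_sum fun i _ => ?_
      by_cases h : i + 1 ≤ k + L
      · rw [if_pos h, if_neg (fun h' => by omega), zero_mul, add_zero]
      · rw [if_neg h, if_pos ⟨by omega, hk2⟩, zero_add]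
        have e2 : k - (i + 1) = 0 := by omega
        rw [e2, pow_zero, mul_one, mul_assoc]
        exact mul_le_mul_of_nonneg_left (En_th hθ (i + 1) w) (om_nonneg sh k i y)
    · have h0 : ∑ x0 ∈ iv n T, W k x0 *
          nsq ((Rs Mx o x1 s n sh k x0 (ix k (y - sh)) - Rm Mx o x1 s n k x0 y) *ᵥ w) = 0 := by
        refine sum_eq_zero fun x0 _ => ?_
        rw [hal k (by omega) hk2 x0, zero_mul]
      rw [h0]
      refine mul_nonneg (by positivity) (add_nonneg (sum_nonneg fun i _ => ?_)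
        (mul_nonneg (sum_nonneg fun i _ => ?_) (nsq_nonneg _)))
      · split_ifs
        · exact mul_nonneg (mul_nonneg (om_nonneg _ _ _ _) (by positivity)) (En_nonneg _ _)
        · exact le_rfl
      · split_ifs
        · exact mul_nonneg (om_nonneg _ _ _ _) (hb0 i)
        · exact le_rfl
  refine (sum_le_sum e1).trans ?_
  rw [← mul_sum, sum_add_distrib, ← sum_mul]
  refine mul_le_mul_of_nonneg_left (add_le_add ?_ ?_) (by positivity)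
  · refine (H210.near_E n L sh y (E := fun i => En Mx n T x1 M3 (i + 1) w)
      fun i => En_nonneg _ _).trans ?_
    exact mul_le_mul_of_nonneg_left hX (by positivity)
  · exact mul_le_mul_of_nonneg_right (om_farA n L sh hb0 al y) (nsq_nonneg _)

/-- the sum of one layer of every scale, one point -/
theorem lay_pt (ho : o = 1 ∨ o = -1) {w : ι → ℝ} {q : ℝ}
    (hX : ∑ i ∈ range n, En Mx n T x1 M3 (i + 1) w ≤ q)
    {W : ℕ → ℤ → ℝ} {e : ℝ} (he : 0 ≤ e) (hW0 : ∀ k x0, 0 ≤ W k x0)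
    (hW : ∀ k < n, ∀ j, ∑ x0 ∈ iv k j, W k x0 ≤ e * 2 ^ k) {y : ℤ} (hy : y ∈ iv n M3) :
    ∑ k ∈ range n, ∑ x0 ∈ iv n T, W k x0 * Nn Mx o x1 (k + 1) x0 y w ≤ e * q := by
  rw [mem_iv] at hy
  have h5 : ∀ k ∈ range n, ∑ x0 ∈ iv n T, W k x0 * Nn Mx o x1 (k + 1) x0 y w ≤
      e * En Mx n T x1 M3 (k + 1) w := by
    intro k hk
    rw [mem_range] at hk
    have h := wt_Nn (Mx := Mx) (x1 := x1) (T := T) (M3 := M3) ho (fun x => hW0 k x)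
      (fun j => hW k hk j) (i := k + 1) hk (p := y) (by omega) (by omega) w
    have e2 : k - (k + 1) = 0 := by omega
    rw [e2, pow_zero, mul_one] at h
    exact h
  refine (sum_le_sum h5).trans ?_
  rw [← mul_sum]
  exact mul_le_mul_of_nonneg_left hX he

/-- (S1) at the scale `k + 1` with the weight of the scale `k` -/
theorem S1y_succ (hs1 : ∀ k a b, |s k a b| ≤ 1) (ho : o = 1 ∨ o = -1) {w : ι → ℝ} {q : ℝ}
    (hX : ∑ i ∈ range n, En Mx n T x1 M3 (i + 1) w ≤ q)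
    {W : ℕ → ℤ → ℝ} {e : ℝ} (he : 0 ≤ e) (hW0 : ∀ k x0, 0 ≤ W k x0)
    (hW : ∀ k < n, ∀ j, ∑ x0 ∈ iv k j, W k x0 ≤ e * 2 ^ k)
    {θ : ℕ → ℤ → ℝ} (hθ0 : ∀ k m, 0 ≤ θ k m)
    (hθ : ∀ k m a, nsq (Mx k m *ᵥ a) ≤ θ k m * nsq a) (al : ℕ → ℤ → Prop) (L : ℕ) (sh : ℤ)
    {y : ℤ} (hy : y ∈ iv n M3) (hup : ∀ k < n, al k y → al (k + 1) y)
    (hal : ∀ k < n, ¬ al k y → ∀ x0, W k x0 = 0) :
    ∑ k ∈ range n, ∑ x0 ∈ iv n T, W k x0 *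
        nsq ((Rs Mx o x1 s n sh (k + 1) x0 (ix (k + 1) (y - sh)) -
          Rm Mx o x1 s n (k + 1) x0 y) *ᵥ w) ≤
      2 * e * ((24 + 8 * (L : ℝ) ^ 3) * q + farA n L (ep θ n T x1 M3) al y * nsq w) := by
  set D : ℕ → ℤ → ℝ := fun k x0 =>
    nsq ((Rs Mx o x1 s n sh k x0 (ix k (y - sh)) - Rm Mx o x1 s n k x0 y) *ᵥ w) with hD
  have hD0 : ∀ k x0, 0 ≤ D k x0 := fun _ _ => nsq_nonneg _
  set W' : ℕ → ℤ → ℝ := fun k x0 => if k = 0 then 0 else W (k - 1) x0 with hW'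
  have hWp : ∀ k x0, W' (k + 1) x0 = W k x0 := fun k x0 => by
    simp only [hW', Nat.succ_ne_zero, if_false, Nat.add_sub_cancel]
  have hW0' : ∀ k x0, 0 ≤ W' k x0 := by
    intro k x0
    simp only [hW']
    split_ifs
    · exact le_rfl
    · exact hW0 _ _
  have hWs' : ∀ k ≤ n, ∀ j, ∑ x0 ∈ iv k j, W' k x0 ≤ e * 2 ^ k := by
    intro k hk j
    rcases k with _ | k
    · simp only [hW', if_true, sum_const_zero]
      positivity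
    · simp only [hWp]
      have h := wt_cell (fun x => hW0 k x) (fun j => hW k (by omega) j) (k + 1) j
      have e2 : k - (k + 1) = 0 := by omega
      rw [e2, pow_zero, mul_one] at h
      exact h
  have hal' : ∀ k ≤ n, ¬ al k y → ∀ x0, W' k x0 = 0 := by
    intro k hk h x0
    rcases k with _ | k
    · simp only [hW', if_true]
    · rw [hWp]
      exact hal k (by omega) (fun h' => h (hup k (by omega) h')) x0
  have q2 := S1y (s := s) hs1 ho hX he hW0' hWs' hθ0 hθ al L sh hy hal'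
  refine le_trans ?_ q2
  rw [sum_range_succ']
  have h1 : 0 ≤ ∑ x0 ∈ iv n T, W' 0 x0 * D 0 x0 :=
    sum_nonneg fun x _ => mul_nonneg (hW0' _ _) (hD0 _ _)
  have h2 : ∑ k ∈ range n, ∑ x0 ∈ iv n T, W k x0 * D (k + 1) x0 =
      ∑ k ∈ range n, ∑ x0 ∈ iv n T, W' (k + 1) x0 * D (k + 1) x0 := by
    refine sum_congr rfl fun k _ => sum_congr rfl fun x _ => ?_
    rw [hWp]
  simp only [hD] at h1 h2
  rw [h2]
  linarith

/-- **The slot of scale `k` against the shifted slot of scale `k + 1`, one point.** -/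
theorem S0y (hs1 : ∀ k a b, |s k a b| ≤ 1) (ho : o = 1 ∨ o = -1) {w : ι → ℝ} {q : ℝ}
    (hX : ∑ i ∈ range n, En Mx n T x1 M3 (i + 1) w ≤ q)
    {W : ℕ → ℤ → ℝ} {e : ℝ} (he : 0 ≤ e) (hW0 : ∀ k x0, 0 ≤ W k x0)
    (hW : ∀ k < n, ∀ j, ∑ x0 ∈ iv k j, W k x0 ≤ e * 2 ^ k)
    {θ : ℕ → ℤ → ℝ} (hθ0 : ∀ k m, 0 ≤ θ k m)
    (hθ : ∀ k m a, nsq (Mx k m *ᵥ a) ≤ θ k m * nsq a) (al : ℕ → ℤ → Prop) (L : ℕ) (sh : ℤ)
    {y : ℤ} (hy : y ∈ iv n M3) (hup : ∀ k < n, al k y → al (k + 1) y)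
    (hal : ∀ k < n, ¬ al k y → ∀ x0, W k x0 = 0) :
    ∑ k ∈ range n, ∑ x0 ∈ iv n T, W k x0 *
        nsq ((Rm Mx o x1 s n k x0 y - Rs Mx o x1 s n sh (k + 1) x0 (ix (k + 1) (y - sh))) *ᵥ w) ≤
      e * ((98 + 32 * (L : ℝ) ^ 3) * q + 4 * (farA n L (ep θ n T x1 M3) al y * nsq w)) := by
  have p1 : ∀ k < n, ∀ x0, nsq ((Rm Mx o x1 s n k x0 y -
      Rs Mx o x1 s n sh (k + 1) x0 (ix (k + 1) (y - sh))) *ᵥ w) ≤
      2 * nsq ((Rs Mx o x1 s n sh (k + 1) x0 (ix (k + 1) (y - sh)) -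
          Rm Mx o x1 s n (k + 1) x0 y) *ᵥ w) + 2 * Nn Mx o x1 (k + 1) x0 y w := by
    intro k hk x0
    have e1 : (Rm Mx o x1 s n k x0 y -
        Rs Mx o x1 s n sh (k + 1) x0 (ix (k + 1) (y - sh))) *ᵥ w =
        Lm Mx o x1 s (k + 1) x0 y *ᵥ w -
        (Rs Mx o x1 s n sh (k + 1) x0 (ix (k + 1) (y - sh)) - Rm Mx o x1 s n (k + 1) x0 y) *ᵥ w := by
      have e2 : Rm Mx o x1 s n k x0 y = Lm Mx o x1 s (k + 1) x0 y + Rm Mx o x1 s n (k + 1) x0 y := by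
        unfold H841.Rm
        rw [sum_eq_sum_Ico_succ_bot hk]
      rw [e2]
      simp only [sub_mulVec, add_mulVec]
      abel
    rw [e1]
    have h1 := nsq_sub_le (Lm Mx o x1 s (k + 1) x0 y *ᵥ w)
      ((Rs Mx o x1 s n sh (k + 1) x0 (ix (k + 1) (y - sh)) - Rm Mx o x1 s n (k + 1) x0 y) *ᵥ w)
    have h3 := Lm_le (Mx := Mx) (o := o) (x1 := x1) hs1 (k + 1) x0 y w
    linarith
  refine (sum_le_sum fun k hk => sum_le_sum fun x0 _ =>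
    mul_le_mul_of_nonneg_left (p1 k (mem_range.1 hk) x0) (hW0 k x0)).trans ?_
  have e5 : ∑ k ∈ range n, ∑ x0 ∈ iv n T, W k x0 *
      (2 * nsq ((Rs Mx o x1 s n sh (k + 1) x0 (ix (k + 1) (y - sh)) -
          Rm Mx o x1 s n (k + 1) x0 y) *ᵥ w) + 2 * Nn Mx o x1 (k + 1) x0 y w) =
      2 * (∑ k ∈ range n, ∑ x0 ∈ iv n T, W k x0 *
        nsq ((Rs Mx o x1 s n sh (k + 1) x0 (ix (k + 1) (y - sh)) -
          Rm Mx o x1 s n (k + 1) x0 y) *ᵥ w)) +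
      2 * ∑ k ∈ range n, ∑ x0 ∈ iv n T, W k x0 * Nn Mx o x1 (k + 1) x0 y w := by
    simp only [mul_sum, ← sum_add_distrib]
    refine sum_congr rfl fun k _ => sum_congr rfl fun x _ => ?_
    ring
  rw [e5]
  have r2 := S1y_succ (s := s) hs1 ho hX he hW0 hW hθ0 hθ al L sh hy hup hal
  have r3 := lay_pt (T := T) ho hX he hW0 hW hy
  refine (add_le_add (mul_le_mul_of_nonneg_left r2 (by norm_num : (0 : ℝ) ≤ 2))
    (mul_le_mul_of_nonneg_left r3 (by norm_num : (0 : ℝ) ≤ 2))).trans (le_of_eq ?_)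
  ring

/-- **(S2), one point.** -/
theorem S2y (hs1 : ∀ k a b, |s k a b| ≤ 1) (ho : o = 1 ∨ o = -1) {w : ι → ℝ} {q : ℝ}
    (hX : ∑ i ∈ range n, En Mx n T x1 M3 (i + 1) w ≤ q)
    {W : ℕ → ℤ → ℝ} {e : ℝ} (he : 0 ≤ e) (hW0 : ∀ k x0, 0 ≤ W k x0)
    (hW : ∀ k ≤ n, ∀ j, ∑ x0 ∈ iv k j, W k x0 ≤ e * 2 ^ k)
    {θ : ℕ → ℤ → ℝ} (hθ0 : ∀ k m, 0 ≤ θ k m)
    (hθ : ∀ k m a, nsq (Mx k m *ᵥ a) ≤ θ k m * nsq a) (al : ℕ → ℤ → Prop) (L : ℕ) (sh : ℤ)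
    {y : ℤ} (hy : y ∈ iv n M3) (hup : ∀ k < n, al k y → al (k + 1) y)
    (hal : ∀ k ≤ n, ¬ al k y → ∀ x0, W k x0 = 0) :
    ∑ k ∈ range n, ∑ x0 ∈ iv n T, W k x0 *
        nsq ((Rs Mx o x1 s n sh k x0 (ix k (y - sh)) -
          Rs Mx o x1 s n sh (k + 1) x0 (ix (k + 1) (y - sh))) *ᵥ w) ≤
      e * ((386 + 128 * (L : ℝ) ^ 3) * q + 16 * (farA n L (ep θ n T x1 M3) al y * nsq w)) := by
  set D : ℕ → ℤ → ℝ := fun k x0 =>
    nsq ((Rs Mx o x1 s n sh k x0 (ix k (y - sh)) - Rm Mx o x1 s n k x0 y) *ᵥ w) with hD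
  have hD0 : ∀ k x0, 0 ≤ D k x0 := fun _ _ => nsq_nonneg _
  have p1 : ∀ k < n, ∀ x0, nsq ((Rs Mx o x1 s n sh k x0 (ix k (y - sh)) -
      Rs Mx o x1 s n sh (k + 1) x0 (ix (k + 1) (y - sh))) *ᵥ w) ≤
      4 * D k x0 + 4 * D (k + 1) x0 + 2 * Nn Mx o x1 (k + 1) x0 y w := by
    intro k hk x0
    have e1 : (Rs Mx o x1 s n sh k x0 (ix k (y - sh)) -
        Rs Mx o x1 s n sh (k + 1) x0 (ix (k + 1) (y - sh))) *ᵥ w =
        ((Rs Mx o x1 s n sh k x0 (ix k (y - sh)) - Rm Mx o x1 s n k x0 y) *ᵥ w -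
        (Rs Mx o x1 s n sh (k + 1) x0 (ix (k + 1) (y - sh)) - Rm Mx o x1 s n (k + 1) x0 y) *ᵥ w) +
        Lm Mx o x1 s (k + 1) x0 y *ᵥ w := by
      have e2 : Rm Mx o x1 s n k x0 y = Lm Mx o x1 s (k + 1) x0 y + Rm Mx o x1 s n (k + 1) x0 y := by
        unfold H841.Rm
        rw [sum_eq_sum_Ico_succ_bot hk]
      rw [e2]
      simp only [sub_mulVec, add_mulVec]
      abel
    rw [e1]
    have h1 := nsq_add_le ((Rs Mx o x1 s n sh k x0 (ix k (y - sh)) - Rm Mx o x1 s n k x0 y) *ᵥ w -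
        (Rs Mx o x1 s n sh (k + 1) x0 (ix (k + 1) (y - sh)) - Rm Mx o x1 s n (k + 1) x0 y) *ᵥ w)
        (Lm Mx o x1 s (k + 1) x0 y *ᵥ w)
    have h2 := nsq_sub_le ((Rs Mx o x1 s n sh k x0 (ix k (y - sh)) - Rm Mx o x1 s n k x0 y) *ᵥ w)
        ((Rs Mx o x1 s n sh (k + 1) x0 (ix (k + 1) (y - sh)) - Rm Mx o x1 s n (k + 1) x0 y) *ᵥ w)
    have h3 := Lm_le (Mx := Mx) (o := o) (x1 := x1) hs1 (k + 1) x0 y w
    simp only [hD]
    linarith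
  have q1 := S1y (s := s) hs1 ho hX he hW0 hW hθ0 hθ al L sh hy hal
  have q2 := S1y_succ (s := s) hs1 ho hX he hW0 (fun k hk => hW k hk.le) hθ0 hθ al L sh hy hup
    (fun k hk => hal k hk.le)
  have q3 := lay_pt (T := T) ho hX he hW0 (fun k hk => hW k hk.le) hy
  have q1' : ∑ k ∈ range n, ∑ x0 ∈ iv n T, W k x0 * D k x0 ≤
      ∑ k ∈ range (n + 1), ∑ x0 ∈ iv n T, W k x0 * D k x0 := by
    rw [sum_range_succ]
    have : 0 ≤ ∑ x0 ∈ iv n T, W n x0 * D n x0 :=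
      sum_nonneg fun x _ => mul_nonneg (hW0 _ _) (hD0 _ _)
    linarith
  refine (sum_le_sum fun k hk => sum_le_sum fun x0 _ =>
    mul_le_mul_of_nonneg_left (p1 k (mem_range.1 hk) x0) (hW0 k x0)).trans ?_
  have e5 : ∑ k ∈ range n, ∑ x0 ∈ iv n T, W k x0 *
      (4 * D k x0 + 4 * D (k + 1) x0 + 2 * Nn Mx o x1 (k + 1) x0 y w) =
      4 * (∑ k ∈ range n, ∑ x0 ∈ iv n T, W k x0 * D k x0) +
      4 * (∑ k ∈ range n, ∑ x0 ∈ iv n T, W k x0 * D (k + 1) x0) +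
      2 * ∑ k ∈ range n, ∑ x0 ∈ iv n T, W k x0 * Nn Mx o x1 (k + 1) x0 y w := by
    simp only [mul_sum, ← sum_add_distrib]
    refine sum_congr rfl fun k _ => sum_congr rfl fun x _ => ?_
    ring
  rw [e5]
  have r1 := q1'.trans q1
  refine (add_le_add (add_le_add (mul_le_mul_of_nonneg_left r1 (by norm_num : (0 : ℝ) ≤ 4))
    (mul_le_mul_of_nonneg_left q2 (by norm_num : (0 : ℝ) ≤ 4)))
    (mul_le_mul_of_nonneg_left q3 (by norm_num : (0 : ℝ) ≤ 2))).trans (le_of_eq ?_)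
  ring

/-! ### Summed over the root cell -/

/-- the far terms of all the points, small live fibres -/
theorem far_all {θ : ℕ → ℤ → ℝ} (hθ0 : ∀ k m, 0 ≤ θ k m) {Θ : ℝ}
    (hΘ : ∑ i ∈ range n, ep θ n T x1 M3 i ≤ Θ * 2 ^ n) {al : ℕ → ℤ → Prop} {v : ℤ → ι → ℝ} {V : ℝ}
    (hV0 : 0 ≤ V) (hV : ∀ k ≤ n, ∀ y, al k y → ∑ y' ∈ iv k (ix k y), nsq (v y') ≤ V * 2 ^ k)
    (L : ℕ) :
    ∑ y ∈ iv n M3, farA n L (ep θ n T x1 M3) al y * nsq (v y) ≤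
      64 * (((L : ℝ) + 2) ^ 2 + 2) / 2 ^ L * (V * Θ * 4 ^ n) := by
  refine (farA_sum n L M3 (ep_nonneg hθ0 n T x1 M3) (fun y => nsq_nonneg (v y)) hV0 hV).trans ?_
  refine (mul_le_mul_of_nonneg_left hΘ (by positivity)).trans (le_of_eq ?_)
  have e4 : (4 : ℝ) ^ n = 2 ^ n * 2 ^ n := by rw [← mul_pow]; norm_num
  rw [e4]
  ring

/-- **(S1), summed, small live fibres.** -/
theorem S1a (hs1 : ∀ k a b, |s k a b| ≤ 1) (ho : o = 1 ∨ o = -1) {Q : (ι → ℝ) → ℝ}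
    (hX : ∀ a, ∑ i ∈ range n, En Mx n T x1 M3 (i + 1) a ≤ 2 ^ n * Q a)
    {W : ℕ → ℤ → ℤ → ℝ} {e : ℝ} (he : 0 ≤ e) (hW0 : ∀ k x0 y, 0 ≤ W k x0 y)
    (hW : ∀ k ≤ n, ∀ j y, ∑ x0 ∈ iv k j, W k x0 y ≤ e * 2 ^ k)
    {θ : ℕ → ℤ → ℝ} (hθ0 : ∀ k m, 0 ≤ θ k m)
    (hθ : ∀ k m a, nsq (Mx k m *ᵥ a) ≤ θ k m * nsq a) {Θ : ℝ}
    (hΘ : ∑ i ∈ range n, ep θ n T x1 M3 i ≤ Θ * 2 ^ n) {al : ℕ → ℤ → Prop} {v : ℤ → ι → ℝ} {V : ℝ}
    (hV0 : 0 ≤ V) (hV : ∀ k ≤ n, ∀ y, al k y → ∑ y' ∈ iv k (ix k y), nsq (v y') ≤ V * 2 ^ k)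
    (hal : ∀ y ∈ iv n M3, ∀ k ≤ n, ¬ al k y → ∀ x0, W k x0 y = 0) (L : ℕ) (sh : ℤ) :
    ∑ y ∈ iv n M3, ∑ k ∈ range (n + 1), ∑ x0 ∈ iv n T, W k x0 y *
        nsq ((Rs Mx o x1 s n sh k x0 (ix k (y - sh)) - Rm Mx o x1 s n k x0 y) *ᵥ v y) ≤
      e * ((48 + 16 * (L : ℝ) ^ 3) * (2 ^ n * ∑ y ∈ iv n M3, Q (v y)) +
        128 * (((L : ℝ) + 2) ^ 2 + 2) / 2 ^ L * (V * Θ * 4 ^ n)) := by
  refine (sum_le_sum fun y hy => S1y (s := s) hs1 ho (hX (v y)) he (fun k x => hW0 k x y)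
    (fun k hk j => hW k hk j y) hθ0 hθ al L sh hy (hal y hy)).trans ?_
  rw [← mul_sum, sum_add_distrib, ← mul_sum, ← mul_sum]
  have h := far_all (M3 := M3) (x1 := x1) (T := T) hθ0 hΘ hV0 hV L
  refine (mul_le_mul_of_nonneg_left (add_le_add le_rfl h) (by positivity)).trans (le_of_eq ?_)
  ring

/-- **The slot of scale `k` against the shifted slot of scale `k + 1`, summed.** -/
theorem S0a (hs1 : ∀ k a b, |s k a b| ≤ 1) (ho : o = 1 ∨ o = -1) {Q : (ι → ℝ) → ℝ}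
    (hX : ∀ a, ∑ i ∈ range n, En Mx n T x1 M3 (i + 1) a ≤ 2 ^ n * Q a)
    {W : ℕ → ℤ → ℤ → ℝ} {e : ℝ} (he : 0 ≤ e) (hW0 : ∀ k x0 y, 0 ≤ W k x0 y)
    (hW : ∀ k < n, ∀ j y, ∑ x0 ∈ iv k j, W k x0 y ≤ e * 2 ^ k)
    {θ : ℕ → ℤ → ℝ} (hθ0 : ∀ k m, 0 ≤ θ k m)
    (hθ : ∀ k m a, nsq (Mx k m *ᵥ a) ≤ θ k m * nsq a) {Θ : ℝ}
    (hΘ : ∑ i ∈ range n, ep θ n T x1 M3 i ≤ Θ * 2 ^ n) {al : ℕ → ℤ → Prop} {v : ℤ → ι → ℝ} {V : ℝ}
    (hV0 : 0 ≤ V) (hV : ∀ k ≤ n, ∀ y, al k y → ∑ y' ∈ iv k (ix k y), nsq (v y') ≤ V * 2 ^ k)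
    (hup : ∀ y ∈ iv n M3, ∀ k < n, al k y → al (k + 1) y)
    (hal : ∀ y ∈ iv n M3, ∀ k < n, ¬ al k y → ∀ x0, W k x0 y = 0) (L : ℕ) (sh : ℤ) :
    ∑ y ∈ iv n M3, ∑ k ∈ range n, ∑ x0 ∈ iv n T, W k x0 y *
        nsq ((Rm Mx o x1 s n k x0 y -
          Rs Mx o x1 s n sh (k + 1) x0 (ix (k + 1) (y - sh))) *ᵥ v y) ≤
      e * ((98 + 32 * (L : ℝ) ^ 3) * (2 ^ n * ∑ y ∈ iv n M3, Q (v y)) +
        256 * (((L : ℝ) + 2) ^ 2 + 2) / 2 ^ L * (V * Θ * 4 ^ n)) := by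
  refine (sum_le_sum fun y hy => S0y (s := s) hs1 ho (hX (v y)) he (fun k x => hW0 k x y)
    (fun k hk j => hW k hk j y) hθ0 hθ al L sh hy (hup y hy) (hal y hy)).trans ?_
  rw [← mul_sum, sum_add_distrib, ← mul_sum, ← mul_sum, ← mul_sum]
  have h := far_all (M3 := M3) (x1 := x1) (T := T) hθ0 hΘ hV0 hV L
  refine (mul_le_mul_of_nonneg_left (add_le_add le_rfl (mul_le_mul_of_nonneg_left h
    (by norm_num : (0 : ℝ) ≤ 4))) he).trans (le_of_eq ?_)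
  ring

/-- **(S2), summed, small live fibres.** -/
theorem S2a (hs1 : ∀ k a b, |s k a b| ≤ 1) (ho : o = 1 ∨ o = -1) {Q : (ι → ℝ) → ℝ}
    (hX : ∀ a, ∑ i ∈ range n, En Mx n T x1 M3 (i + 1) a ≤ 2 ^ n * Q a)
    {W : ℕ → ℤ → ℤ → ℝ} {e : ℝ} (he : 0 ≤ e) (hW0 : ∀ k x0 y, 0 ≤ W k x0 y)
    (hW : ∀ k ≤ n, ∀ j y, ∑ x0 ∈ iv k j, W k x0 y ≤ e * 2 ^ k)
    {θ : ℕ → ℤ → ℝ} (hθ0 : ∀ k m, 0 ≤ θ k m)
    (hθ : ∀ k m a, nsq (Mx k m *ᵥ a) ≤ θ k m * nsq a) {Θ : ℝ}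
    (hΘ : ∑ i ∈ range n, ep θ n T x1 M3 i ≤ Θ * 2 ^ n) {al : ℕ → ℤ → Prop} {v : ℤ → ι → ℝ} {V : ℝ}
    (hV0 : 0 ≤ V) (hV : ∀ k ≤ n, ∀ y, al k y → ∑ y' ∈ iv k (ix k y), nsq (v y') ≤ V * 2 ^ k)
    (hup : ∀ y ∈ iv n M3, ∀ k < n, al k y → al (k + 1) y)
    (hal : ∀ y ∈ iv n M3, ∀ k ≤ n, ¬ al k y → ∀ x0, W k x0 y = 0) (L : ℕ) (sh : ℤ) :
    ∑ y ∈ iv n M3, ∑ k ∈ range n, ∑ x0 ∈ iv n T, W k x0 y *
        nsq ((Rs Mx o x1 s n sh k x0 (ix k (y - sh)) -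
          Rs Mx o x1 s n sh (k + 1) x0 (ix (k + 1) (y - sh))) *ᵥ v y) ≤
      e * ((386 + 128 * (L : ℝ) ^ 3) * (2 ^ n * ∑ y ∈ iv n M3, Q (v y)) +
        1024 * (((L : ℝ) + 2) ^ 2 + 2) / 2 ^ L * (V * Θ * 4 ^ n)) := by
  refine (sum_le_sum fun y hy => S2y (s := s) hs1 ho (hX (v y)) he (fun k x => hW0 k x y)
    (fun k hk j => hW k hk j y) hθ0 hθ al L sh hy (hup y hy) (hal y hy)).trans ?_
  rw [← mul_sum, sum_add_distrib, ← mul_sum, ← mul_sum, ← mul_sum]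
  have h := far_all (M3 := M3) (x1 := x1) (T := T) hθ0 hΘ hV0 hV L
  refine (mul_le_mul_of_nonneg_left (add_le_add le_rfl (mul_le_mul_of_nonneg_left h
    (by norm_num : (0 : ℝ) ≤ 16))) he).trans (le_of_eq ?_)
  ring

end

end Vale.Agent.P141.H876
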