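import Vale.Agent.P141.H876.ShiftY
import Vale.Agent.P141.H185.EnRs

/-!
# P141, line (A): the reduction of (S0) and (S2) to (S1), arbitrary signs

Letters of `H841.Lay`. Nothing is assumed on the signs; the weights are nonnegative.

* `Rm_step`, `red_S0`, `red_S2` : the differences of the slots by the deviation and one layer;
* `lay_end` : the weighted sum of the layers at the point `y` by the END energy of the slot;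
* `succ_of`, `succ_ofY` : a bound of (S1) for all weights gives the bound of the form `k + 1`;
* `S0_of`, `S2_of` : (S0), (S2) from (S1) and the END energy, summed over `y`.
-/

namespace Vale.Agent.P141.H876

open Finset Matrix
open Vale.Agent.P141.PL (iv ix hs mem_iv ix_ix card_iv)
open Vale.Agent.P141.H43 (avv nsq nsq_nonneg)
open Vale.Agent.P141.H841 (Lm Rm Rs nsq_add_le nsq_sub_le)

noncomputable section

variable {ι : Type*} [Fintype ι]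

variable {Mx : ℕ → ℤ → Matrix ι ι ℝ} {o x1 T M3 : ℤ} {n : ℕ} {s : ℕ → ℤ → ℤ → ℝ}

omit [Fintype ι] in
theorem Rm_step {k : ℕ} (hk : k < n) (x0 y : ℤ) :
    Rm Mx o x1 s n k x0 y = Lm Mx o x1 s (k + 1) x0 y + Rm Mx o x1 s n (k + 1) x0 y := by
  unfold H841.Rm
  rw [sum_eq_sum_Ico_succ_bot hk]

/-- **(S0) by (S1) and one layer.** -/
theorem red_S0 {W : ℕ → ℤ → ℝ} (hW0 : ∀ k x0, 0 ≤ W k x0) (sh y : ℤ) (w : ι → ℝ) :
    ∑ k ∈ range n, ∑ x0 ∈ iv n T, W k x0 *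
        nsq ((Rm Mx o x1 s n k x0 y - Rs Mx o x1 s n sh (k + 1) x0 (ix (k + 1) (y - sh))) *ᵥ w) ≤
      2 * (∑ k ∈ range n, ∑ x0 ∈ iv n T, W k x0 *
        nsq ((Rs Mx o x1 s n sh (k + 1) x0 (ix (k + 1) (y - sh)) -
          Rm Mx o x1 s n (k + 1) x0 y) *ᵥ w)) +
      2 * ∑ k ∈ range n, ∑ x0 ∈ iv n T, W k x0 * nsq (Lm Mx o x1 s (k + 1) x0 y *ᵥ w) := by
  have p1 : ∀ k < n, ∀ x0, nsq ((Rm Mx o x1 s n k x0 y -
      Rs Mx o x1 s n sh (k + 1) x0 (ix (k + 1) (y - sh))) *ᵥ w) ≤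
      2 * nsq ((Rs Mx o x1 s n sh (k + 1) x0 (ix (k + 1) (y - sh)) -
          Rm Mx o x1 s n (k + 1) x0 y) *ᵥ w) + 2 * nsq (Lm Mx o x1 s (k + 1) x0 y *ᵥ w) := by
    intro k hk x0
    have e1 : (Rm Mx o x1 s n k x0 y -
        Rs Mx o x1 s n sh (k + 1) x0 (ix (k + 1) (y - sh))) *ᵥ w =
        Lm Mx o x1 s (k + 1) x0 y *ᵥ w -
        (Rs Mx o x1 s n sh (k + 1) x0 (ix (k + 1) (y - sh)) - Rm Mx o x1 s n (k + 1) x0 y) *ᵥ w := by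
      rw [Rm_step hk]
      simp only [sub_mulVec, add_mulVec]
      abel
    rw [e1]
    have h1 := nsq_sub_le (Lm Mx o x1 s (k + 1) x0 y *ᵥ w)
      ((Rs Mx o x1 s n sh (k + 1) x0 (ix (k + 1) (y - sh)) - Rm Mx o x1 s n (k + 1) x0 y) *ᵥ w)
    linarith
  refine (sum_le_sum fun k hk => sum_le_sum fun x0 _ =>
    mul_le_mul_of_nonneg_left (p1 k (mem_range.1 hk) x0) (hW0 k x0)).trans (le_of_eq ?_)
  simp only [mul_sum, ← sum_add_distrib]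
  refine sum_congr rfl fun k _ => sum_congr rfl fun x _ => ?_
  ring

/-- **(S2) by (S1) and one layer.** -/
theorem red_S2 {W : ℕ → ℤ → ℝ} (hW0 : ∀ k x0, 0 ≤ W k x0) (sh y : ℤ) (w : ι → ℝ) :
    ∑ k ∈ range n, ∑ x0 ∈ iv n T, W k x0 *
        nsq ((Rs Mx o x1 s n sh k x0 (ix k (y - sh)) -
          Rs Mx o x1 s n sh (k + 1) x0 (ix (k + 1) (y - sh))) *ᵥ w) ≤
      4 * (∑ k ∈ range n, ∑ x0 ∈ iv n T, W k x0 *
        nsq ((Rs Mx o x1 s n sh k x0 (ix k (y - sh)) - Rm Mx o x1 s n k x0 y) *ᵥ w)) +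
      4 * (∑ k ∈ range n, ∑ x0 ∈ iv n T, W k x0 *
        nsq ((Rs Mx o x1 s n sh (k + 1) x0 (ix (k + 1) (y - sh)) -
          Rm Mx o x1 s n (k + 1) x0 y) *ᵥ w)) +
      2 * ∑ k ∈ range n, ∑ x0 ∈ iv n T, W k x0 * nsq (Lm Mx o x1 s (k + 1) x0 y *ᵥ w) := by
  have p1 : ∀ k < n, ∀ x0, nsq ((Rs Mx o x1 s n sh k x0 (ix k (y - sh)) -
      Rs Mx o x1 s n sh (k + 1) x0 (ix (k + 1) (y - sh))) *ᵥ w) ≤
      4 * nsq ((Rs Mx o x1 s n sh k x0 (ix k (y - sh)) - Rm Mx o x1 s n k x0 y) *ᵥ w) +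
      4 * nsq ((Rs Mx o x1 s n sh (k + 1) x0 (ix (k + 1) (y - sh)) -
        Rm Mx o x1 s n (k + 1) x0 y) *ᵥ w) + 2 * nsq (Lm Mx o x1 s (k + 1) x0 y *ᵥ w) := by
    intro k hk x0
    have e1 : (Rs Mx o x1 s n sh k x0 (ix k (y - sh)) -
        Rs Mx o x1 s n sh (k + 1) x0 (ix (k + 1) (y - sh))) *ᵥ w =
        ((Rs Mx o x1 s n sh k x0 (ix k (y - sh)) - Rm Mx o x1 s n k x0 y) *ᵥ w -
        (Rs Mx o x1 s n sh (k + 1) x0 (ix (k + 1) (y - sh)) - Rm Mx o x1 s n (k + 1) x0 y) *ᵥ w) +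
        Lm Mx o x1 s (k + 1) x0 y *ᵥ w := by
      rw [Rm_step hk]
      simp only [sub_mulVec, add_mulVec]
      abel
    rw [e1]
    have h1 := nsq_add_le ((Rs Mx o x1 s n sh k x0 (ix k (y - sh)) - Rm Mx o x1 s n k x0 y) *ᵥ w -
        (Rs Mx o x1 s n sh (k + 1) x0 (ix (k + 1) (y - sh)) - Rm Mx o x1 s n (k + 1) x0 y) *ᵥ w)
        (Lm Mx o x1 s (k + 1) x0 y *ᵥ w)
    have h2 := nsq_sub_le ((Rs Mx o x1 s n sh k x0 (ix k (y - sh)) - Rm Mx o x1 s n k x0 y) *ᵥ w)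
        ((Rs Mx o x1 s n sh (k + 1) x0 (ix (k + 1) (y - sh)) - Rm Mx o x1 s n (k + 1) x0 y) *ᵥ w)
    linarith
  refine (sum_le_sum fun k hk => sum_le_sum fun x0 _ =>
    mul_le_mul_of_nonneg_left (p1 k (mem_range.1 hk) x0) (hW0 k x0)).trans (le_of_eq ?_)
  simp only [mul_sum, ← sum_add_distrib]
  refine sum_congr rfl fun k _ => sum_congr rfl fun x _ => ?_
  ring

/-- **The layers at the point `y` by the END energy.** -/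
theorem lay_end {W : ℕ → ℤ → ℝ} {e : ℝ}
    (hW : ∀ k < n, ∀ j, ∑ x0 ∈ iv k j, W k x0 ≤ e * 2 ^ k) (y : ℤ) (w : ι → ℝ) :
    ∑ k ∈ range n, ∑ x0 ∈ iv n T, W k x0 * nsq (Lm Mx o x1 s (k + 1) x0 y *ᵥ w) ≤
      e * ∑ x0 ∈ iv n T, nsq (Rm Mx o x1 s n 0 x0 y *ᵥ w) := by
  rw [H185.sum_Rm (Nat.zero_le n), Nat.Ico_zero_eq_range, mul_sum]
  refine sum_le_sum fun k hk => ?_
  rw [mem_range] at hk
  exact H185.sum_cell (k := k) hk.le T (hW k hk) (fun x => nsq_nonneg _) fun x z h => by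
    rw [H185.Lm_ix h]

/-! ### Summed over the root cell -/

/-- a bound of (S1) for all weights gives the bound of the form `k + 1` -/
theorem succ_ofY {al : ℕ → ℤ → Prop} {e B : ℝ} (he : 0 ≤ e) {v : ℤ → ι → ℝ} {sh : ℤ}
    (hS : ∀ W : ℕ → ℤ → ℤ → ℝ, (∀ k x0 y, 0 ≤ W k x0 y) →
      (∀ k ≤ n, ∀ j y, ∑ x0 ∈ iv k j, W k x0 y ≤ e * 2 ^ k) →
      (∀ y ∈ iv n M3, ∀ k ≤ n, ¬ al k y → ∀ x0, W k x0 y = 0) →
      ∑ y ∈ iv n M3, ∑ k ∈ range (n + 1), ∑ x0 ∈ iv n T, W k x0 y *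
        nsq ((Rs Mx o x1 s n sh k x0 (ix k (y - sh)) - Rm Mx o x1 s n k x0 y) *ᵥ v y) ≤ B)
    {W : ℕ → ℤ → ℤ → ℝ} (hW0 : ∀ k x0 y, 0 ≤ W k x0 y)
    (hW : ∀ k < n, ∀ j y, ∑ x0 ∈ iv k j, W k x0 y ≤ e * 2 ^ k)
    (hup : ∀ y ∈ iv n M3, ∀ k < n, al k y → al (k + 1) y)
    (hal : ∀ y ∈ iv n M3, ∀ k < n, ¬ al k y → ∀ x0, W k x0 y = 0) :
    ∑ y ∈ iv n M3, ∑ k ∈ range n, ∑ x0 ∈ iv n T, W k x0 y *
      nsq ((Rs Mx o x1 s n sh (k + 1) x0 (ix (k + 1) (y - sh)) -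
        Rm Mx o x1 s n (k + 1) x0 y) *ᵥ v y) ≤ B := by
  set D : ℕ → ℤ → ℤ → ℝ := fun k x0 y =>
    nsq ((Rs Mx o x1 s n sh k x0 (ix k (y - sh)) - Rm Mx o x1 s n k x0 y) *ᵥ v y) with hD
  have hD0 : ∀ k x0 y, 0 ≤ D k x0 y := fun _ _ _ => nsq_nonneg _
  set W' : ℕ → ℤ → ℤ → ℝ := fun k x0 y => if k = 0 then 0 else W (k - 1) x0 y with hW'
  have hWp : ∀ k x0 y, W' (k + 1) x0 y = W k x0 y := fun k x0 y => by
    simp only [hW', Nat.succ_ne_zero, if_false, Nat.add_sub_cancel]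
  have hW0' : ∀ k x0 y, 0 ≤ W' k x0 y := by
    intro k x0 y
    simp only [hW']
    split_ifs
    · exact le_rfl
    · exact hW0 _ _ _
  have hWs' : ∀ k ≤ n, ∀ j y, ∑ x0 ∈ iv k j, W' k x0 y ≤ e * 2 ^ k := by
    intro k hk j y
    rcases k with _ | k
    · simp only [hW', if_true, sum_const_zero]
      positivity
    · simp only [hWp]
      have h := wt_cell (fun x => hW0 k x y) (fun j => hW k (by omega) j y) (k + 1) j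
      have e2 : k - (k + 1) = 0 := by omega
      rw [e2, pow_zero, mul_one] at h
      exact h
  have hal' : ∀ y ∈ iv n M3, ∀ k ≤ n, ¬ al k y → ∀ x0, W' k x0 y = 0 := by
    intro y hy k hk h x0
    rcases k with _ | k
    · simp only [hW', if_true]
    · rw [hWp]
      exact hal y hy k (by omega) (fun h' => h (hup y hy k (by omega) h')) x0
  refine le_trans (sum_le_sum fun y _ => ?_) (hS W' hW0' hWs' hal')
  rw [sum_range_succ']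
  have h1 : 0 ≤ ∑ x0 ∈ iv n T, W' 0 x0 y * D 0 x0 y :=
    sum_nonneg fun x _ => mul_nonneg (hW0' _ _ _) (hD0 _ _ _)
  have h2 : ∑ k ∈ range n, ∑ x0 ∈ iv n T, W k x0 y * D (k + 1) x0 y =
      ∑ k ∈ range n, ∑ x0 ∈ iv n T, W' (k + 1) x0 y * D (k + 1) x0 y := by
    refine sum_congr rfl fun k _ => sum_congr rfl fun x _ => ?_
    rw [hWp]
  simp only [hD] at h1 h2
  rw [h2]
  linarith

/-- **(S0) from (S1) and the END energy**, summed over `y`. -/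
theorem S0_of {al : ℕ → ℤ → Prop} {e B : ℝ} (he : 0 ≤ e) {v : ℤ → ι → ℝ} {sh : ℤ}
    (hS : ∀ W : ℕ → ℤ → ℤ → ℝ, (∀ k x0 y, 0 ≤ W k x0 y) →
      (∀ k ≤ n, ∀ j y, ∑ x0 ∈ iv k j, W k x0 y ≤ e * 2 ^ k) →
      (∀ y ∈ iv n M3, ∀ k ≤ n, ¬ al k y → ∀ x0, W k x0 y = 0) →
      ∑ y ∈ iv n M3, ∑ k ∈ range (n + 1), ∑ x0 ∈ iv n T, W k x0 y *
        nsq ((Rs Mx o x1 s n sh k x0 (ix k (y - sh)) - Rm Mx o x1 s n k x0 y) *ᵥ v y) ≤ B)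
    {W : ℕ → ℤ → ℤ → ℝ} (hW0 : ∀ k x0 y, 0 ≤ W k x0 y)
    (hW : ∀ k < n, ∀ j y, ∑ x0 ∈ iv k j, W k x0 y ≤ e * 2 ^ k)
    (hup : ∀ y ∈ iv n M3, ∀ k < n, al k y → al (k + 1) y)
    (hal : ∀ y ∈ iv n M3, ∀ k < n, ¬ al k y → ∀ x0, W k x0 y = 0) :
    ∑ y ∈ iv n M3, ∑ k ∈ range n, ∑ x0 ∈ iv n T, W k x0 y *
      nsq ((Rm Mx o x1 s n k x0 y -
        Rs Mx o x1 s n sh (k + 1) x0 (ix (k + 1) (y - sh))) *ᵥ v y) ≤
      2 * B + 2 * (e * ∑ y ∈ iv n M3, ∑ x0 ∈ iv n T, nsq (Rm Mx o x1 s n 0 x0 y *ᵥ v y)) := by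
  refine (sum_le_sum fun y _ => red_S0 (fun k x => hW0 k x y) sh y (v y)).trans ?_
  rw [sum_add_distrib, ← mul_sum, ← mul_sum]
  refine add_le_add (mul_le_mul_of_nonneg_left (succ_ofY he hS hW0 hW hup hal) (by norm_num))
    (mul_le_mul_of_nonneg_left ?_ (by norm_num))
  rw [mul_sum]
  exact sum_le_sum fun y _ => lay_end (fun k hk j => hW k hk j y) y (v y)

/-- **(S2) from (S1) and the END energy**, summed over `y`. -/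
theorem S2_of {al : ℕ → ℤ → Prop} {e B : ℝ} (he : 0 ≤ e) {v : ℤ → ι → ℝ} {sh : ℤ}
    (hS : ∀ W : ℕ → ℤ → ℤ → ℝ, (∀ k x0 y, 0 ≤ W k x0 y) →
      (∀ k ≤ n, ∀ j y, ∑ x0 ∈ iv k j, W k x0 y ≤ e * 2 ^ k) →
      (∀ y ∈ iv n M3, ∀ k ≤ n, ¬ al k y → ∀ x0, W k x0 y = 0) →
      ∑ y ∈ iv n M3, ∑ k ∈ range (n + 1), ∑ x0 ∈ iv n T, W k x0 y *
        nsq ((Rs Mx o x1 s n sh k x0 (ix k (y - sh)) - Rm Mx o x1 s n k x0 y) *ᵥ v y) ≤ B)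
    {W : ℕ → ℤ → ℤ → ℝ} (hW0 : ∀ k x0 y, 0 ≤ W k x0 y)
    (hW : ∀ k ≤ n, ∀ j y, ∑ x0 ∈ iv k j, W k x0 y ≤ e * 2 ^ k)
    (hup : ∀ y ∈ iv n M3, ∀ k < n, al k y → al (k + 1) y)
    (hal : ∀ y ∈ iv n M3, ∀ k ≤ n, ¬ al k y → ∀ x0, W k x0 y = 0) :
    ∑ y ∈ iv n M3, ∑ k ∈ range n, ∑ x0 ∈ iv n T, W k x0 y *
      nsq ((Rs Mx o x1 s n sh k x0 (ix k (y - sh)) -
        Rs Mx o x1 s n sh (k + 1) x0 (ix (k + 1) (y - sh))) *ᵥ v y) ≤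
      8 * B + 2 * (e * ∑ y ∈ iv n M3, ∑ x0 ∈ iv n T, nsq (Rm Mx o x1 s n 0 x0 y *ᵥ v y)) := by
  refine (sum_le_sum fun y _ => red_S2 (fun k x => hW0 k x y) sh y (v y)).trans ?_
  rw [sum_add_distrib, sum_add_distrib, ← mul_sum, ← mul_sum, ← mul_sum]
  have q1 : ∑ y ∈ iv n M3, ∑ k ∈ range n, ∑ x0 ∈ iv n T, W k x0 y *
      nsq ((Rs Mx o x1 s n sh k x0 (ix k (y - sh)) - Rm Mx o x1 s n k x0 y) *ᵥ v y) ≤ B := by
    refine le_trans (sum_le_sum fun y _ => ?_) (hS W hW0 hW hal)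
    rw [sum_range_succ]
    have : 0 ≤ ∑ x0 ∈ iv n T, W n x0 y *
        nsq ((Rs Mx o x1 s n sh n x0 (ix n (y - sh)) - Rm Mx o x1 s n n x0 y) *ᵥ v y) :=
      sum_nonneg fun x _ => mul_nonneg (hW0 _ _ _) (nsq_nonneg _)
    linarith
  have q2 := succ_ofY he hS hW0 (fun k hk => hW k hk.le) hup fun y hy k hk => hal y hy k hk.le
  have q3 : ∑ y ∈ iv n M3, ∑ k ∈ range n, ∑ x0 ∈ iv n T,
      W k x0 y * nsq (Lm Mx o x1 s (k + 1) x0 y *ᵥ v y) ≤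
      e * ∑ y ∈ iv n M3, ∑ x0 ∈ iv n T, nsq (Rm Mx o x1 s n 0 x0 y *ᵥ v y) := by
    rw [mul_sum]
    exact sum_le_sum fun y _ => lay_end (fun k hk j => hW k hk.le j y) y (v y)
  linarith

end

end Vale.Agent.P141.H876
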