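import Vale.Agent.P141.H876.QRaw
import Vale.Agent.P141.H677.RawFD

/-!
# P141, line (A): the field `q` of the numbers of every slot
-/

namespace Vale.Agent.P141.H876.QR

open Finset Matrix
open Vale.Agent.P141.PL (Pt)
open Vale.Agent.P141.H677.Sk

noncomputable section

open scoped Classical

/-- **The moves of every slot.** -/
theorem fld_q : RawField FQ := by
  refine ⟨3, 12, 12, fun p => cB 3 (41472 * p.L), ?_⟩
  intro ι _ _ q n ez F1 F2 F3 o K x s r U g u v A b C R κ E hS h _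
  obtain ⟨Q1, Q2, Q3, v', D⟩ := hS.dat
  have hez : 0 ≤ ez := hS.hF2.1
  exact q_raw D hS.cls hS.ho hS.hK hS.t0 hS.t1 hS.L1 hS.s0 hS.r1 hez hS.e00.le hS.E0 hS.slt
    (by linarith [hS.κ1]) h.2.2

end

end Vale.Agent.P141.H876.QR
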