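import Vale.Agent.P141.H841.SlotB
import Vale.Agent.P141.H677.SlotR

/-!
# P141, line (A): the raw numbers of the moves of one slot (field `q`)

* `raw_B` : one constant in front of the two raw bounds is free;
* `Wq`, `aq` : the weight `φ (k + 1) ^ 2` at the scale `k`, its live scales;
* `q_x1s`, `q_x1b` : the moves at one label point, signed and blind;
* `q_raw` : `Raw` for the field `q` of `H677.Sk.NumX`.
-/

namespace Vale.Agent.P141.H876.QR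

open Finset Matrix
open Vale.Agent.P141.PL (Pt iv ix mem_iv ix_ix cx cb)
open Vale.Agent.P141.PL.H315 (Tri)
open Vale.Agent.P141.H43 (nsq nsq_nonneg)
open Vale.Agent.P141.H48 (sst)
open Vale.Agent.P141.H305 (ClsM kapM)
open Vale.Agent.P141.H677 (KT GT MT kF rt)
open Vale.Agent.P141.H677.Sk (Slt FamA FamV FDs SlotN Raw av lam1)
open Vale.Agent.P141.H841

noncomputable section

open scoped Classical

set_option linter.unusedSectionVars false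

/-! ### The constant -/

theorem exists_m (q : ℕ) (B : ℝ) : ∃ m : ℕ, B * (1 + (m : ℝ)) ^ q ≤ 2 ^ m := by
  have h := tendsto_pow_const_div_const_pow_of_one_lt q (one_lt_two (α := ℝ))
  have h2 : ∀ᶠ m : ℕ in Filter.atTop, (m : ℝ) ^ q / 2 ^ m < 1 / (2 * (|B| + 1)) :=
    h.eventually (gt_mem_nhds (by positivity))
  obtain ⟨m, hm⟩ := (h2.and (Filter.eventually_ge_atTop 1)).exists
  refine ⟨m - 1, ?_⟩
  have e1 : ((m - 1 : ℕ) : ℝ) = (m : ℝ) - 1 := by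
    rw [Nat.cast_sub hm.2, Nat.cast_one]
  have e2 : 1 + ((m - 1 : ℕ) : ℝ) = m := by rw [e1]; ring
  have e3 : (2 : ℝ) ^ m = 2 * 2 ^ (m - 1) := by
    rw [← pow_succ']
    congr 1
    have := hm.2
    omega
  rw [e2]
  have h3 := hm.1
  rw [div_lt_div_iff₀ (by positivity) (by positivity), one_mul, e3] at h3
  have h4 : 0 ≤ (m : ℝ) ^ q := by positivity
  have h5 : B * (m : ℝ) ^ q ≤ (|B| + 1) * (m : ℝ) ^ q :=
    mul_le_mul_of_nonneg_right (by linarith [le_abs_self B]) h4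
  nlinarith

/-- the shift of the truncation -/
def mB (q : ℕ) (B : ℝ) : ℕ := Classical.choose (exists_m q B)

theorem mB_spec (q : ℕ) (B : ℝ) : B * (1 + (mB q B : ℝ)) ^ q ≤ 2 ^ mB q B :=
  Classical.choose_spec (exists_m q B)

/-- the new constant -/
def cB (q : ℕ) (B : ℝ) : ℝ := (B * (1 + (mB q B : ℝ)) ^ q) ^ 2

/-- **One constant in front of the two raw bounds is free.** -/
theorem raw_B {q : ℕ} {C0 C1 B b y e0 κ E D X : ℝ} (hB : 1 ≤ B) (hb : 0 ≤ b) (hy : 0 < y)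
    (hE : 0 ≤ E) (hD : 0 ≤ D)
    (h1 : ∀ L : ℕ, X ≤ D * (B * (1 + (L : ℝ)) ^ q *
      (b * y ^ e0 + (1 + κ) ^ 2 * y ^ (-C0) / 2 ^ L)))
    (h2 : ∀ (L : ℕ) (δ : ℝ), 0 < δ → X ≤ D * (B * (1 + (L : ℝ)) ^ q *
      (δ + y ^ (-C1) * E / δ + E + (1 + κ) ^ 2 * y ^ (-C1) * (1 + 1 / δ) / 2 ^ L))) :
    Raw q C0 C1 (cB q B) b y e0 κ E D X := by
  set m := mB q B with hm
  set H : ℝ := B * (1 + (m : ℝ)) ^ q with hH
  have hm2 : H ≤ 2 ^ m := mB_spec q B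
  have hm0 : (0 : ℝ) ≤ m := Nat.cast_nonneg m
  have hH1 : 1 ≤ H := by
    have := one_le_pow₀ (n := q) (by linarith : (1 : ℝ) ≤ 1 + m)
    calc (1 : ℝ) = 1 * 1 := by ring
      _ ≤ B * (1 + (m : ℝ)) ^ q := mul_le_mul hB this zero_le_one (by linarith)
  have hH0 : 0 < H := by linarith
  have y0 : 0 < y ^ e0 := Real.rpow_pos_of_pos hy _
  have y1 : 0 < y ^ (-C0) := Real.rpow_pos_of_pos hy _
  have y2 : 0 < y ^ (-C1) := Real.rpow_pos_of_pos hy _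
  have hL : ∀ L : ℕ, (1 + ((L + m : ℕ) : ℝ)) ^ q ≤ (1 + (m : ℝ)) ^ q * (1 + (L : ℝ)) ^ q := by
    intro L
    rw [← mul_pow]
    have h0 : (0 : ℝ) ≤ L := Nat.cast_nonneg L
    refine pow_le_pow_left₀ (by positivity) ?_ q
    push_cast
    nlinarith [mul_nonneg hm0 h0]
  have hc : cB q B = H ^ 2 := rfl
  have hHH : H ≤ H ^ 2 := by nlinarith
  have hg : ∀ z : ℝ, H * (z / (2 : ℝ) ^ m) ≤ z ∨ z < 0 := by
    intro z
    rcases le_or_gt 0 z with hz | hz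
    · left
      rw [← mul_div_assoc, div_le_iff₀ (by positivity), mul_comm z]
      exact mul_le_mul_of_nonneg_right hm2 hz
    · exact Or.inr hz
  refine ⟨fun L => ?_, fun L δ hδ => ?_⟩
  · refine (h1 (L + m)).trans (mul_le_mul_of_nonneg_left ?_ hD)
    have z0 : 0 ≤ (1 + κ) ^ 2 * y ^ (-C0) / 2 ^ L := by positivity
    have e1 : (1 + κ) ^ 2 * y ^ (-C0) / 2 ^ (L + m) = (1 + κ) ^ 2 * y ^ (-C0) / 2 ^ L / 2 ^ m := by
      rw [pow_add, div_div]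
    rw [e1]
    have w0 : 0 ≤ b * y ^ e0 + (1 + κ) ^ 2 * y ^ (-C0) / 2 ^ L / 2 ^ m := by positivity
    calc B * (1 + ((L + m : ℕ) : ℝ)) ^ q *
          (b * y ^ e0 + (1 + κ) ^ 2 * y ^ (-C0) / 2 ^ L / 2 ^ m)
        ≤ B * ((1 + (m : ℝ)) ^ q * (1 + (L : ℝ)) ^ q) *
          (b * y ^ e0 + (1 + κ) ^ 2 * y ^ (-C0) / 2 ^ L / 2 ^ m) :=
          mul_le_mul_of_nonneg_right (mul_le_mul_of_nonneg_left (hL L) (by linarith)) w0
      _ = (1 + (L : ℝ)) ^ q * (H * (b * y ^ e0) +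
          H * ((1 + κ) ^ 2 * y ^ (-C0) / 2 ^ L / 2 ^ m)) := by rw [hH]; ring
      _ ≤ (1 + (L : ℝ)) ^ q * (b * cB q B * y ^ e0 + (1 + κ) ^ 2 * y ^ (-C0) / 2 ^ L) := by
          refine mul_le_mul_of_nonneg_left (add_le_add ?_ ?_) (by positivity)
          · rw [hc]
            have := mul_le_mul_of_nonneg_right hHH (by positivity : 0 ≤ b * y ^ e0)
            linarith
          · rcases hg ((1 + κ) ^ 2 * y ^ (-C0) / 2 ^ L) with h | h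
            · exact h
            · linarith
  · have hδ' : 0 < H * δ := mul_pos hH0 hδ
    refine (h2 (L + m) (H * δ) hδ').trans (mul_le_mul_of_nonneg_left ?_ hD)
    set Z : ℝ := (1 + κ) ^ 2 * y ^ (-C1) / 2 ^ L with hZ
    have z0 : 0 ≤ Z := by positivity
    have e1 : (1 + κ) ^ 2 * y ^ (-C1) * (1 + 1 / (H * δ)) / 2 ^ (L + m) =
        Z * (1 + 1 / (H * δ)) / 2 ^ m := by
      rw [pow_add, hZ]
      field_simp
    rw [e1]
    have w0 : 0 ≤ H * δ + y ^ (-C1) * E / (H * δ) + E + Z * (1 + 1 / (H * δ)) / 2 ^ m := by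
      positivity
    calc B * (1 + ((L + m : ℕ) : ℝ)) ^ q *
          (H * δ + y ^ (-C1) * E / (H * δ) + E + Z * (1 + 1 / (H * δ)) / 2 ^ m)
        ≤ B * ((1 + (m : ℝ)) ^ q * (1 + (L : ℝ)) ^ q) *
          (H * δ + y ^ (-C1) * E / (H * δ) + E + Z * (1 + 1 / (H * δ)) / 2 ^ m) :=
          mul_le_mul_of_nonneg_right (mul_le_mul_of_nonneg_left (hL L) (by linarith)) w0
      _ = (1 + (L : ℝ)) ^ q * (H * (H * δ) + H * (y ^ (-C1) * E / (H * δ)) + H * E +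
          H * (Z * (1 + 1 / (H * δ)) / 2 ^ m)) := by rw [hH]; ring
      _ ≤ (1 + (L : ℝ)) ^ q * (cB q B * δ + y ^ (-C1) * E / δ + cB q B * E +
          (1 + κ) ^ 2 * y ^ (-C1) * (1 + 1 / δ) / 2 ^ L) := by
          refine mul_le_mul_of_nonneg_left (add_le_add (add_le_add (add_le_add ?_ ?_) ?_) ?_)
            (by positivity)
          · rw [hc]
            exact le_of_eq (by ring)
          · refine le_of_eq ?_
            field_simp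
          · rw [hc]
            exact mul_le_mul_of_nonneg_right hHH hE
          · have h5 : Z * (1 + 1 / (H * δ)) ≤ Z * (1 + 1 / δ) := by
              refine mul_le_mul_of_nonneg_left (add_le_add le_rfl ?_) z0
              refine one_div_le_one_div_of_le hδ ?_
              nlinarith
            have h6 : H * (Z * (1 + 1 / (H * δ)) / 2 ^ m) ≤ Z * (1 + 1 / (H * δ)) := by
              rcases hg (Z * (1 + 1 / (H * δ))) with h | h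
              · exact h
              · have : 0 ≤ Z * (1 + 1 / (H * δ)) := by positivity
                linarith
            refine (h6.trans h5).trans (le_of_eq ?_)
            rw [hZ]
            ring

/-! ### The weight -/

section fd

variable {ι : Type} [Fintype ι] [DecidableEq ι]

variable {q : H401.Num} {n : ℕ} {ez : ℝ} {F1 F2 F3 : ℕ → Pt → ℝ} {o : ℤ} {K : ℕ} {x : Pt}
  {s r : ℝ} {U : Tri} {g : ℤ → ℤ → ℝ} {u v : ℤ → ℤ → ι → ℝ} {A : FamA} {b C : FamV ι}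
  {Q1 Q2 Q3 : ℕ → Pt → Prop} {v' : ℤ → ℤ → ι → ℝ} {R : Slt ι} {κ E : ℝ}

/-- the weight of the time `k + 1` at the scale `k` -/
def Wq (q : H401.Num) (K : ℕ) (U : Tri) (F2 : ℕ → Pt → ℝ) (x1 : ℤ) (k : ℕ) (x0 y : ℤ) : ℝ :=
  if k < K then kF q.Lm U.2.1 K F2 (k + 1) (x0, x1, y) ^ 2 else 0

/-- the live scales of the weight -/
def aq (q : H401.Num) (K : ℕ) (x : Pt) (U : Tri) (x1 : ℤ) (k : ℕ) (y : ℤ) : Prop :=
  alF q K x U x1 (min (k + 1) K) y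

theorem Wq_nonneg (x1 : ℤ) (k : ℕ) (x0 y : ℤ) : 0 ≤ Wq q K U F2 x1 k x0 y := by
  unfold Wq
  split_ifs
  · positivity
  · exact le_rfl

theorem Wq_line (D : FDs q n ez F1 F2 F3 K x s r U g u v A b C Q1 Q2 Q3 v') (hez : 0 ≤ ez)
    (hKn : K ≤ n) (x1 : ℤ) :
    ∀ k ≤ K, ∀ j y, ∑ x0 ∈ iv k j, Wq q K U F2 x1 k x0 y ≤ ez * 2 ^ k := by
  intro k _ j y
  unfold Wq
  by_cases h : k < K
  · simp only [if_pos h]
    exact H58.kF_line D.B2 hez (by omega) j x1 y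
  · simp only [if_neg h, sum_const_zero]
    positivity

theorem aq_up (x1 : ℤ) : ∀ y ∈ iv K (cx K x).2.2, ∀ k < K, aq q K x U x1 k y →
    aq q K x U x1 (k + 1) y := by
  intro y hy k hk h
  unfold aq at *
  by_cases h1 : k + 1 < K
  · rw [min_eq_left (by omega)] at h
    rw [min_eq_left (by omega)]
    exact upF q K x U x1 y hy (k + 1) h1 h
  · rw [min_eq_right (by omega)] at h
    rw [min_eq_right (by omega)]
    exact h

theorem Wq_dead (x1 : ℤ) : ∀ y ∈ iv K (cx K x).2.2, ∀ k ≤ K, ¬ aq q K x U x1 k y →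
    ∀ x0, Wq q K U F2 x1 k x0 y = 0 := by
  intro y hy k _ h x0
  unfold Wq
  by_cases h1 : k < K
  · rw [if_pos h1]
    unfold aq at h
    rw [min_eq_left (by omega)] at h
    unfold H841.alF at h
    have h2 : sst q.Lm U.2.1 K (k + 1) x1 y := by
      by_contra h3
      exact h ⟨mem_iv.1 hy, h3⟩
    rw [H58.kF_dead F2 h2, zero_pow two_ne_zero]
  · rw [if_neg h1]

theorem lam1_nonneg (ht : 0 < q.t) (hr : 1 ≤ r) : 0 ≤ lam1 q s r := by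
  unfold H677.Sk.lam1
  have h1 : 0 < q.t ^ (-8 : ℝ) := Real.rpow_pos_of_pos ht _
  have h2 : 0 < r ^ (8 : ℝ) := Real.rpow_pos_of_pos (by linarith) _
  positivity

theorem aq_fib (D : FDs q n ez F1 F2 F3 K x s r U g u v A b C Q1 Q2 Q3 v') (ht : 0 < q.t)
    (hr : 1 ≤ r) {x1 : ℤ} (hx1 : x1 ∈ iv K (cx K x).1) :
    ∀ k ≤ K, ∀ y, aq q K x U x1 k y →
      ∑ y' ∈ iv k (ix k y), nsq (v' x1 y') ≤ 2 * lam1 q s r * 2 ^ k := by
  intro k hk y h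
  have hm : min (k + 1) K ≤ K := min_le_right _ _
  have h1 := fibF D hx1 (min (k + 1) K) hm y h
  have hkm : k ≤ min (k + 1) K := le_min (by omega) hk
  have hsub : iv k (ix k y) ⊆ iv (min (k + 1) K) (ix (min (k + 1) K) y) := by
    intro z hz
    rw [mem_iv] at hz ⊢
    have e : ∀ w : ℤ, ix (min (k + 1) K) w = ix (min (k + 1) K - k) (ix k w) := fun w => by
      rw [ix_ix, Nat.add_sub_cancel' hkm]
    rw [e, e, hz]
  refine (sum_le_sum_of_subset_of_nonneg hsub fun _ _ _ => nsq_nonneg _).trans (h1.trans ?_)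
  have h2 : (2 : ℝ) ^ min (k + 1) K ≤ 2 * 2 ^ k := by
    rw [← pow_succ']
    exact pow_le_pow_right₀ (by norm_num) (min_le_left _ _)
  have h3 := mul_le_mul_of_nonneg_left h2 (lam1_nonneg (s := s) ht hr)
  linarith

/-! ### One label point -/

/-- the number of the field at one label point and one root of `x₀` -/
def Xq (K : ℕ) (M : Pt) (R : Slt ι) (C : FamV ι) (h t x1 : ℤ) : ℝ :=
  ∑ z ∈ iv K M.2.2, ∑ k ∈ range K, ∑ x0 ∈ iv K t,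
    nsq ((av R h x0 k z x1 - av R h x0 (k + 1) z x1) *ᵥ C x0 (k + 1) z x1)

section one

variable {sx : ℤ → ℕ → ℤ → ℤ → ℝ}

theorem Xq_eq (D : FDs q n ez F1 F2 F3 K x s r U g u v A b C Q1 Q2 Q3 v') {l : ℝ}
    (hs0 : ∀ x1 k a b, ((b, o - 2 - a - ix k x1 - b, ix k x1) : Pt) ∉
      H677.sN (q.al U K) o K (cx K x) (2 ^ k * a) k → sx x1 k a b = 0)
    (hR : ∀ x0 j z x1, R x0 j z x1 = Rm (MT l (KT l u x1)) o x1 (sx x1) K j x0 z)
    (h t x1 : ℤ) :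
    Xq K (cx K x) R C h t x1 = ∑ y ∈ iv K (cx K x).2.2, ∑ k ∈ range K, ∑ x0 ∈ iv K t,
      Wq q K U F2 x1 k x0 y *
        nsq ((Rs (Mc l K (cx K x).2.1 u x1) o x1 (sx x1) K h k x0 (ix k (y - h)) -
          Rs (Mc l K (cx K x).2.1 u x1) o x1 (sx x1) K h (k + 1) x0 (ix (k + 1) (y - h))) *ᵥ
            v' x1 y) := by
  unfold Xq
  refine sum_congr rfl fun z _ => sum_congr rfl fun k hk => sum_congr rfl fun x0 _ => ?_
  rw [av_cut hs0 hR, av_cut hs0 hR, D.C_eq, mulVec_smul, nsq_smul]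
  unfold Wq
  rw [if_pos (mem_range.1 hk)]

theorem q_x1s (D : FDs q n ez F1 F2 F3 K x s r U g u v A b C Q1 Q2 Q3 v') {l : ℝ} (hl : 0 < l)
    (ho : o = 1 ∨ o = -1) (hez : 0 ≤ ez) (hKn : K ≤ n) (ht : 0 < q.t) (hr : 1 ≤ r)
    (hs1 : ∀ x1 k a b, |sx x1 k a b| ≤ 1)
    (hs0 : ∀ x1 k a b, ((b, o - 2 - a - ix k x1 - b, ix k x1) : Pt) ∉
      H677.sN (q.al U K) o K (cx K x) (2 ^ k * a) k → sx x1 k a b = 0)
    (hR : ∀ x0 j z x1, R x0 j z x1 = Rm (MT l (KT l u x1)) o x1 (sx x1) K j x0 z)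
    (hE : 0 ≤ E)
    (hen : ∀ (T : Finset ℤ) (z : ℤ), ∀ x1 ∈ iv K (cx K x).1, ∀ w,
      ∑ t ∈ T, ∑ x0 ∈ iv K t, nsq (R x0 0 z x1 *ᵥ w) ≤ 2 ^ K * (E * nsq w))
    (h t : ℤ) {x1 : ℤ} (hx1 : x1 ∈ iv K (cx K x).1) (L : ℕ) {δ : ℝ} (hδ : 0 < δ) :
    Xq K (cx K x) R C h t x1 ≤ 13824 * ez * (1 + (L : ℝ)) ^ 3 *
        H64.NB K L (∑ z ∈ iv K (cx K x).2.2, nsq (v' x1 z)) (2 * lam1 q s r)
          (Th1 l K (cx K x).2.1 u x1) (Th1 l K (cx K x).2.1 u x1) E δ +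
      2 * ez * (2 ^ K * E * ∑ z ∈ iv K (cx K x).2.2, nsq (v' x1 z)) := by
  rw [Xq_eq D hs0 hR]
  exact H64.S2s (hypN_slot hl ho hs1 hs0 hR hE hen hx1 t) hez
    (fun k x0 y => Wq_nonneg x1 k x0 y) (Wq_line D hez hKn x1)
    (mul_nonneg (by norm_num) (lam1_nonneg ht hr)) (aq_fib D ht hr hx1) (aq_up x1)
    (Wq_dead x1) L h hδ

theorem q_x1b (D : FDs q n ez F1 F2 F3 K x s r U g u v A b C Q1 Q2 Q3 v') {l : ℝ} (hl : 0 < l)
    (ho : o = 1 ∨ o = -1) (hez : 0 ≤ ez) (hKn : K ≤ n) (ht : 0 < q.t) (hr : 1 ≤ r)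
    (hs1 : ∀ x1 k a b, |sx x1 k a b| ≤ 1)
    (hs0 : ∀ x1 k a b, ((b, o - 2 - a - ix k x1 - b, ix k x1) : Pt) ∉
      H677.sN (q.al U K) o K (cx K x) (2 ^ k * a) k → sx x1 k a b = 0)
    (hR : ∀ x0 j z x1, R x0 j z x1 = Rm (MT l (KT l u x1)) o x1 (sx x1) K j x0 z)
    (h t : ℤ) {x1 : ℤ} (hx1 : x1 ∈ iv K (cx K x).1) (L : ℕ) :
    Xq K (cx K x) R C h t x1 ≤ ez * ((386 + 128 * (L : ℝ) ^ 3) * (2 ^ K *
        ∑ z ∈ iv K (cx K x).2.2, H64.Qf (cJ l K (cx K x).2.1) (uJ K (cx K x).2.1 u x1) (v' x1 z)) +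
      1024 * (((L : ℝ) + 2) ^ 2 + 2) / 2 ^ L *
        (2 * lam1 q s r * Th1 l K (cx K x).2.1 u x1 * 4 ^ K)) := by
  rw [Xq_eq D hs0 hR]
  exact H876.S2a (s := sx x1) (hs1 x1) ho (hX1 hl K u (cx K x).2.1 t x1 (cx K x).2.2) hez
    (fun k x0 y => Wq_nonneg x1 k x0 y) (Wq_line D hez hKn x1) (thH_nonneg _) (thH_le _)
    (hTh1 hl K u (cx K x).2.1 t x1 (cx K x).2.2) (mul_nonneg (by norm_num) (lam1_nonneg ht hr))
    (aq_fib D ht hr hx1) (aq_up x1) (Wq_dead x1) L h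

end one

/-! ### The sums -/

theorem sum5 {S A' B : Finset ℤ} {X : ℤ → Finset ℤ} {N : Finset ℕ} (f : ℤ → ℕ → ℤ → ℤ → ℝ) :
    ∑ t ∈ S, ∑ x0 ∈ X t, ∑ k ∈ N, ∑ x ∈ A', ∑ z ∈ B, f x0 k x z =
      ∑ x ∈ A', ∑ t ∈ S, ∑ z ∈ B, ∑ k ∈ N, ∑ x0 ∈ X t, f x0 k x z := by
  have h1 : ∀ t ∈ S, ∑ x0 ∈ X t, ∑ k ∈ N, ∑ x ∈ A', ∑ z ∈ B, f x0 k x z =
      ∑ x ∈ A', ∑ z ∈ B, ∑ k ∈ N, ∑ x0 ∈ X t, f x0 k x z := fun t _ => H483.sum4 f
  rw [sum_congr rfl h1, sum_comm]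

/-- the number of the field -/
def TQ (K : ℕ) (M : Pt) (R : Slt ι) (C : FamV ι) (h : ℤ) : ℝ :=
  ∑ t ∈ rt M, ∑ x0 ∈ iv K t, ∑ k ∈ range K, ∑ x ∈ iv K M.1, ∑ z ∈ iv K M.2.2,
    nsq ((av R h x0 k z x - av R h x0 (k + 1) z x) *ᵥ C x0 (k + 1) z x)

theorem TQ_eq (K : ℕ) (M : Pt) (R : Slt ι) (C : FamV ι) (h : ℤ) :
    TQ K M R C h = ∑ x1 ∈ iv K M.1, ∑ t ∈ rt M, Xq K M R C h t x1 := by
  unfold TQ Xq
  exact sum5 fun x0 k x z => nsq ((av R h x0 k z x - av R h x0 (k + 1) z x) *ᵥ C x0 (k + 1) z x)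

/-- the fibre level against the gap -/
theorem lam1_div {p : H401.Num} (ht : 0 < p.t) (ht1 : p.t ≤ 1) (hs : 0 < s)
    (hr : 1 ≤ r) (he0 : 0 ≤ p.e0) :
    lam1 p s r / p.lam s r ≤ (p.t / r) ^ (-(10 : ℝ)) := by
  have hr0 : 0 < r := by linarith
  have hl := H401.Num.lam_pos (p := p) ht hs hr
  rw [div_le_iff₀ hl]
  unfold H677.Sk.lam1 H401.Num.lam
  have h1 : (p.t / r) ^ (-(10 : ℝ)) = p.t ^ (-(10 : ℝ)) * r ^ (10 : ℝ) := by
    rw [Real.div_rpow ht.le hr0.le, Real.rpow_neg hr0.le (10 : ℝ), div_inv_eq_mul]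
  rw [h1]
  have h2 : p.t ^ (-(8 : ℝ)) ≤ p.t ^ (-(10 : ℝ)) * p.t ^ (2 - p.e0) := by
    rw [← Real.rpow_add ht]
    exact Real.rpow_le_rpow_of_exponent_ge ht ht1 (by linarith)
  have h3 : r ^ (8 : ℝ) ≤ r ^ (10 : ℝ) * r ^ p.e0 := by
    rw [← Real.rpow_add hr0]
    exact Real.rpow_le_rpow_of_exponent_le hr (by linarith)
  have h4 : 0 ≤ √s := Real.sqrt_nonneg s
  have h5 : 0 ≤ r ^ (8 : ℝ) := (Real.rpow_pos_of_pos hr0 _).le
  have h6 : 0 ≤ p.t ^ (-(10 : ℝ)) * p.t ^ (2 - p.e0) :=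
    mul_nonneg (Real.rpow_pos_of_pos ht _).le (Real.rpow_pos_of_pos ht _).le
  calc p.t ^ (-(8 : ℝ)) * √s * r ^ (8 : ℝ) = (p.t ^ (-(8 : ℝ)) * r ^ (8 : ℝ)) * √s := by ring
    _ ≤ ((p.t ^ (-(10 : ℝ)) * p.t ^ (2 - p.e0)) * (r ^ (10 : ℝ) * r ^ p.e0)) * √s :=
      mul_le_mul_of_nonneg_right (mul_le_mul h2 h3 h5 h6) h4
    _ = p.t ^ (-(10 : ℝ)) * r ^ (10 : ℝ) * (p.t ^ (2 - p.e0) * √s * r ^ p.e0) := by ring

/-- the row level against the gap -/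
theorem row_div {p : H401.Num} (ht : 0 < p.t) (ht1 : p.t ≤ 1) (hs : 0 < s)
    (hr : 1 ≤ r) (he0 : 0 ≤ p.e0) : r * √s ≤ p.lam s r * (r / p.t) ^ 2 := by
  have hr0 : 0 < r := by linarith
  unfold H401.Num.lam
  have h1 : p.t ^ 2 ≤ p.t ^ (2 - p.e0) := by
    rw [← Real.rpow_natCast]
    exact Real.rpow_le_rpow_of_exponent_ge ht ht1 (by push_cast; linarith)
  have h2 : 1 ≤ r ^ p.e0 := Real.one_le_rpow hr he0
  have h3 : 0 ≤ √s := Real.sqrt_nonneg s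
  have h4 : 1 ≤ p.t ^ (2 - p.e0) * r ^ p.e0 / p.t ^ 2 := by
    rw [le_div_iff₀ (by positivity), one_mul]
    have h5 : 0 < p.t ^ (2 - p.e0) := Real.rpow_pos_of_pos ht _
    nlinarith
  have h6 : r * √s ≤ r ^ 2 * √s := by
    have : r ≤ r ^ 2 := by nlinarith
    exact mul_le_mul_of_nonneg_right this h3
  calc r * √s ≤ r ^ 2 * √s * 1 := by linarith
    _ ≤ r ^ 2 * √s * (p.t ^ (2 - p.e0) * r ^ p.e0 / p.t ^ 2) :=
      mul_le_mul_of_nonneg_left h4 (by positivity)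
    _ = p.t ^ (2 - p.e0) * √s * r ^ p.e0 * (r / p.t) ^ 2 := by
      rw [div_pow]
      field_simp

theorem num_b {L Lq G Z k : ℝ} (hL : 0 ≤ L) (hq : 1 ≤ Lq) (hG : 0 ≤ G) (hZ : 0 ≤ Z)
    (hk : 1 ≤ k) : (1 + L) ^ 3 * (579 * Lq * G + 18432 * Z) ≤
      41472 * Lq * (1 + L) ^ 3 * (G + k * Z) := by
  have h1 : 579 * Lq * G ≤ 41472 * Lq * G := mul_le_mul_of_nonneg_right (by linarith) hG
  have h2 : 18432 * Z ≤ 41472 * Lq * (k * Z) := by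
    have h3 : Z ≤ k * Z := le_mul_of_one_le_left hZ hk
    have h4 : Z ≤ Lq * (k * Z) := h3.trans (le_mul_of_one_le_left (hZ.trans h3) hq)
    linarith
  calc (1 + L) ^ 3 * (579 * Lq * G + 18432 * Z) ≤
        (1 + L) ^ 3 * (41472 * Lq * G + 41472 * Lq * (k * Z)) :=
        mul_le_mul_of_nonneg_left (add_le_add h1 h2) (by positivity)
    _ = _ := by ring

theorem num_s {L Lq δ G1 G2 E k : ℝ} (hL : 0 ≤ L) (hq : 1 ≤ Lq) (hδ : 0 ≤ δ) (h1 : 0 ≤ G1)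
    (h2 : 0 ≤ G2) (hE : 0 ≤ E) (hk : 1 ≤ k) :
    41472 * (1 + L) ^ 3 * (δ + (G1 + G2)) + 6 * E ≤
      41472 * Lq * (1 + L) ^ 3 * (δ + G1 + E + k * G2) := by
  have h3 : 1 ≤ (1 + L) ^ 3 := one_le_pow₀ (by linarith)
  have h4 : G2 ≤ k * G2 := le_mul_of_one_le_left h2 hk
  have h5 : 6 * E ≤ 41472 * (1 + L) ^ 3 * E := by
    have := le_mul_of_one_le_left hE h3
    linarith
  have h6 : 0 ≤ (1 + L) ^ 3 * (δ + G1 + E + k * G2) := by
    have : 0 ≤ k * G2 := h2.trans h4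
    positivity
  calc 41472 * (1 + L) ^ 3 * (δ + (G1 + G2)) + 6 * E ≤
        41472 * (1 + L) ^ 3 * (δ + (G1 + k * G2)) + 41472 * (1 + L) ^ 3 * E :=
        add_le_add (mul_le_mul_of_nonneg_left (by linarith) (by positivity)) h5
    _ = 41472 * ((1 + L) ^ 3 * (δ + G1 + E + k * G2)) := by ring
    _ ≤ 41472 * (Lq * ((1 + L) ^ 3 * (δ + G1 + E + k * G2))) :=
        mul_le_mul_of_nonneg_left (le_mul_of_one_le_left h6 hq) (by norm_num)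
    _ = _ := by ring

theorem c3_le {L : ℝ} (hL : 0 ≤ L) : 386 + 128 * L ^ 3 ≤ 386 * (1 + L) ^ 3 := by
  nlinarith [mul_nonneg hL hL, mul_nonneg (mul_nonneg hL hL) hL]

theorem c4_le {L : ℝ} (hL : 0 ≤ L) : (L + 2) ^ 2 + 2 ≤ 6 * (1 + L) ^ 3 := by
  nlinarith [mul_nonneg hL hL, mul_nonneg (mul_nonneg hL hL) hL]

/-- the powers of `t / r` -/
theorem y_le (ht : 0 < q.t) (ht1 : q.t ≤ 1) (hs : 0 < s) (hr : 1 ≤ r) (he0 : 0 ≤ q.e0) {E δ : ℝ}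
    (hE : 0 ≤ E) (hδ : 0 < δ) (L : ℕ) :
    lam1 q s r / q.lam s r ≤ (q.t / r) ^ (-(12 : ℝ)) ∧
    lam1 q s r / q.lam s r * (E / δ + (1 + (r / q.t) ^ 2 / 2 / δ) / 2 ^ L) ≤
      (q.t / r) ^ (-(12 : ℝ)) * E / δ + (q.t / r) ^ (-(12 : ℝ)) * (1 + 1 / δ) / 2 ^ L := by
  have hr0 : 0 < r := by linarith
  have hy : 0 < q.t / r := div_pos ht hr0
  have hy1 : q.t / r ≤ 1 := by
    rw [div_le_one hr0]
    linarith
  have hρ : lam1 q s r / q.lam s r ≤ (q.t / r) ^ (-(10 : ℝ)) := lam1_div ht ht1 hs hr he0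
  have hΘy : (q.t / r) ^ (-(10 : ℝ)) * (r / q.t) ^ 2 = (q.t / r) ^ (-(12 : ℝ)) := by
    have e1 : (r / q.t) ^ 2 = (q.t / r) ^ (-(2 : ℝ)) := by
      have e2 : (q.t / r) ^ (-(2 : ℝ)) = ((q.t / r) ^ 2)⁻¹ := by
        rw [Real.rpow_neg hy.le]
        congr 1
        exact Real.rpow_natCast (q.t / r) 2
      rw [e2, ← inv_pow, inv_div]
    rw [e1, ← Real.rpow_add hy]
    norm_num
  have hyle : (q.t / r) ^ (-(10 : ℝ)) ≤ (q.t / r) ^ (-(12 : ℝ)) :=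
    Real.rpow_le_rpow_of_exponent_ge hy hy1 (by norm_num)
  have y10 : 0 < (q.t / r) ^ (-(10 : ℝ)) := Real.rpow_pos_of_pos hy _
  have y12 : 0 < (q.t / r) ^ (-(12 : ℝ)) := Real.rpow_pos_of_pos hy _
  generalize (q.t / r) ^ (-(10 : ℝ)) = a at *
  generalize (q.t / r) ^ (-(12 : ℝ)) = b at *
  generalize lam1 q s r / q.lam s r = ρ at *
  generalize (r / q.t) = w at *
  refine ⟨hρ.trans hyle, ?_⟩
  have p1 : 0 ≤ E / δ := by positivity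
  have p2 : ρ * (1 + w ^ 2 / 2 / δ) ≤ b * (1 + 1 / δ) := by
    calc ρ * (1 + w ^ 2 / 2 / δ) ≤ a * (1 + w ^ 2 / 2 / δ) :=
          mul_le_mul_of_nonneg_right hρ (by positivity)
      _ ≤ a * (1 + w ^ 2 / δ) := by
          refine mul_le_mul_of_nonneg_left (add_le_add le_rfl ?_) y10.le
          have : 0 ≤ w ^ 2 / δ := by positivity
          rw [div_right_comm]
          linarith
      _ = a + a * w ^ 2 / δ := by ring
      _ = a + b / δ := by rw [hΘy]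
      _ ≤ b + b / δ := by linarith
      _ = _ := by ring
  calc ρ * (E / δ + (1 + w ^ 2 / 2 / δ) / 2 ^ L)
      = ρ * (E / δ) + ρ * (1 + w ^ 2 / 2 / δ) / 2 ^ L := by ring
    _ ≤ b * (E / δ) + b * (1 + 1 / δ) / 2 ^ L :=
        add_le_add (mul_le_mul_of_nonneg_right (hρ.trans hyle) p1)
          (div_le_div_of_nonneg_right p2 (by positivity))
    _ = _ := by ring

/-- the blind number -/
theorem q_blind (D : FDs q n ez F1 F2 F3 K x s r U g u v A b C Q1 Q2 Q3 v') {κ0 : ℝ}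
    (hcls : ClsM K x s r (q.L * q.t ^ (2 - q.c) * √s) κ0 U g u v)
    (ho : o = 1 ∨ o = -1) (hKn : K ≤ n) (ht : 0 < q.t) (ht1 : q.t ≤ 1) (hL : 1 ≤ q.L)
    (hs : 0 < s) (hr : 1 ≤ r) (hez : 0 ≤ ez) (he0 : 0 ≤ q.e0)
    (hS : SlotN (q.al U K) o K (cx K x) (q.lam s r) u R κ E) (h : ℤ) (L : ℕ) :
    TQ K (cx K x) R C h ≤ ez * s * 8 ^ K * ((1 + (L : ℝ)) ^ 3 *
      (579 * q.L * (q.t ^ (-q.c) * (q.t / r) ^ q.e0) +
        18432 * ((q.t / r) ^ (-(12 : ℝ)) / 2 ^ L))) := by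
  obtain ⟨sx, hs1, hs0, hR⟩ := hS.sgn
  have hl : 0 < q.lam s r := H401.Num.lam_pos ht hs hr
  have hr0 : 0 < r := by linarith
  have hy : 0 < q.t / r := div_pos ht hr0
  have hl1 : 0 ≤ lam1 q s r := lam1_nonneg ht hr
  have hP0 : 0 ≤ q.L * q.t ^ (2 - q.c) * √s := by
    have h1 : 0 < q.t ^ (2 - q.c) := Real.rpow_pos_of_pos ht _
    have h2 : 0 ≤ q.L := by linarith
    positivity
  have hρ := (y_le (E := 0) (δ := 1) ht ht1 hs hr he0 le_rfl one_pos 0).1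
  have h8 : (8 : ℝ) ^ K = 2 ^ K * 4 ^ K := by rw [← mul_pow]; norm_num
  have hc3 : ((rt (cx K x)).card : ℝ) = 3 := H58.card_rt _
  have hL0 : (0 : ℝ) ≤ L := Nat.cast_nonneg L
  rw [TQ_eq]
  have h1 : ∀ x1 ∈ iv K (cx K x).1, ∑ t ∈ rt (cx K x), Xq K (cx K x) R C h t x1 ≤
      3 * (ez * ((386 + 128 * (L : ℝ) ^ 3) * (2 ^ K * ∑ z ∈ iv K (cx K x).2.2,
        H64.Qf (cJ (q.lam s r) K (cx K x).2.1) (uJ K (cx K x).2.1 u x1) (v' x1 z)) +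
      1024 * (((L : ℝ) + 2) ^ 2 + 2) / 2 ^ L *
        (2 * lam1 q s r * Th1 (q.lam s r) K (cx K x).2.1 u x1 * 4 ^ K))) := by
    intro x1 hx1
    refine (sum_le_sum fun t _ => q_x1b D hl ho hez hKn ht hr hs1 hs0 hR h t hx1 L).trans ?_
    rw [sum_const, nsmul_eq_mul, hc3]
  refine (sum_le_sum h1).trans ?_
  rw [← mul_sum, ← mul_sum, sum_add_distrib, ← mul_sum, ← mul_sum, ← mul_sum, ← sum_mul,
    ← mul_sum]
  have h2 := Q_sumC hcls.toCls hl hP0 (v'_le D)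
  have h3 := Th_sumC hcls.toCls hl
  have hm := H677.Sk.m_eq (q := q) ht hs hr
  have e1 : (2 * q.lam s r)⁻¹ * (q.L * q.t ^ (2 - q.c) * √s) =
      q.L / 2 * (q.t ^ (-q.c) * (q.t / r) ^ q.e0) := by
    rw [← hm, div_eq_inv_mul]
  rw [e1] at h2
  have hSb : 0 ≤ ∑ x1 ∈ iv K (cx K x).1, Th1 (q.lam s r) K (cx K x).2.1 u x1 :=
    sum_nonneg fun x1 _ => Th1_nonneg hl K _ u x1
  generalize ∑ x1 ∈ iv K (cx K x).1, ∑ z ∈ iv K (cx K x).2.2,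
    H64.Qf (cJ (q.lam s r) K (cx K x).2.1) (uJ K (cx K x).2.1 u x1) (v' x1 z) = Sa at *
  generalize ∑ x1 ∈ iv K (cx K x).1, Th1 (q.lam s r) K (cx K x).2.1 u x1 = Sb at *
  have hG : 0 ≤ q.t ^ (-q.c) * (q.t / r) ^ q.e0 :=
    mul_nonneg (Real.rpow_pos_of_pos ht _).le (Real.rpow_pos_of_pos hy _).le
  have y12 : 0 < (q.t / r) ^ (-(12 : ℝ)) := Real.rpow_pos_of_pos hy _
  have hLq : 0 ≤ q.L := by linarith
  have p2 : 2 * lam1 q s r * Sb * 4 ^ K ≤ (q.t / r) ^ (-(12 : ℝ)) * (s * 8 ^ K) := by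
    calc 2 * lam1 q s r * Sb * 4 ^ K ≤
          2 * lam1 q s r * ((2 * q.lam s r)⁻¹ * (s * 2 ^ K)) * 4 ^ K := by
          refine mul_le_mul_of_nonneg_right (mul_le_mul_of_nonneg_left h3 (by positivity))
            (by positivity)
      _ = lam1 q s r / q.lam s r * (s * 8 ^ K) := by
          rw [h8]
          field_simp
      _ ≤ (q.t / r) ^ (-(12 : ℝ)) * (s * 8 ^ K) :=
          mul_le_mul_of_nonneg_right hρ (by positivity)
  have p3 : 0 ≤ 2 * lam1 q s r * Sb * 4 ^ K := by positivity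
  generalize q.t ^ (-q.c) * (q.t / r) ^ q.e0 = G at *
  generalize (q.t / r) ^ (-(12 : ℝ)) = Y at *
  generalize 2 * lam1 q s r * Sb * 4 ^ K = Z at *
  have f1 : (386 + 128 * (L : ℝ) ^ 3) * (2 ^ K * Sa) ≤
      (386 * (1 + (L : ℝ)) ^ 3) * (2 ^ K * (q.L / 2 * G * (s * 4 ^ K))) := by
    have p1 : 0 ≤ 2 ^ K * (q.L / 2 * G * (s * 4 ^ K)) := by positivity
    exact le_trans (mul_le_mul_of_nonneg_left (mul_le_mul_of_nonneg_left h2
      (by positivity)) (by positivity)) (mul_le_mul_of_nonneg_right (c3_le hL0) p1)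
  have f2 : 1024 * (((L : ℝ) + 2) ^ 2 + 2) / 2 ^ L * Z ≤
      1024 * (6 * (1 + (L : ℝ)) ^ 3) / 2 ^ L * (Y * (s * 8 ^ K)) := by
    refine mul_le_mul ?_ p2 p3 (by positivity)
    exact div_le_div_of_nonneg_right (mul_le_mul_of_nonneg_left (c4_le hL0) (by norm_num))
      (by positivity)
  refine (mul_le_mul_of_nonneg_left (mul_le_mul_of_nonneg_left (add_le_add f1 f2) hez)
    (by norm_num : (0 : ℝ) ≤ 3)).trans (le_of_eq ?_)
  rw [h8]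
  ring

/-- the signed number -/
theorem q_signed (D : FDs q n ez F1 F2 F3 K x s r U g u v A b C Q1 Q2 Q3 v') {κ0 : ℝ}
    (hcls : ClsM K x s r (q.L * q.t ^ (2 - q.c) * √s) κ0 U g u v)
    (ho : o = 1 ∨ o = -1) (hKn : K ≤ n) (ht : 0 < q.t) (ht1 : q.t ≤ 1)
    (hs : 0 < s) (hr : 1 ≤ r) (hez : 0 ≤ ez) (he0 : 0 ≤ q.e0) (hE : 0 < E)
    (hS : SlotN (q.al U K) o K (cx K x) (q.lam s r) u R κ E) (h : ℤ) (L : ℕ) {δ : ℝ}
    (hδ : 0 < δ) :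
    TQ K (cx K x) R C h ≤ ez * s * 8 ^ K * (41472 * (1 + (L : ℝ)) ^ 3 *
      (δ + ((q.t / r) ^ (-(12 : ℝ)) * E / δ +
        (q.t / r) ^ (-(12 : ℝ)) * (1 + 1 / δ) / 2 ^ L)) + 6 * E) := by
  obtain ⟨sx, hs1, hs0, hR⟩ := hS.sgn
  have hl : 0 < q.lam s r := H401.Num.lam_pos ht hs hr
  have hl1 : 0 ≤ lam1 q s r := lam1_nonneg ht hr
  have f1 := (y_le ht ht1 hs hr he0 hE.le hδ L).2
  have h8 : (8 : ℝ) ^ K = 2 ^ K * 4 ^ K := by rw [← mul_pow]; norm_num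
  have hc3 : ((rt (cx K x)).card : ℝ) = 3 := H58.card_rt _
  have hL0 : (0 : ℝ) ≤ L := Nat.cast_nonneg L
  rw [TQ_eq]
  have h1 : ∀ x1 ∈ iv K (cx K x).1, ∑ t ∈ rt (cx K x), Xq K (cx K x) R C h t x1 ≤
      3 * (13824 * ez * (1 + (L : ℝ)) ^ 3 *
        H64.NB K L (∑ z ∈ iv K (cx K x).2.2, nsq (v' x1 z)) (2 * lam1 q s r)
          (Th1 (q.lam s r) K (cx K x).2.1 u x1) (Th1 (q.lam s r) K (cx K x).2.1 u x1) E δ +
        2 * ez * (2 ^ K * E * ∑ z ∈ iv K (cx K x).2.2, nsq (v' x1 z))) := by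
    intro x1 hx1
    refine (sum_le_sum fun t _ => q_x1s D hl ho hez hKn ht hr hs1 hs0 hR hE.le hS.en h t hx1 L
      hδ).trans ?_
    rw [sum_const, nsmul_eq_mul, hc3]
  refine (sum_le_sum h1).trans ?_
  rw [← mul_sum, sum_add_distrib, ← mul_sum, ← mul_sum, ← mul_sum]
  have h2 := NB_sum hcls.toCls hl (v'_le D) (V := 2 * lam1 q s r) (by positivity) hE.le hδ
    (Th_le hcls ht hl (row_div ht ht1 hs hr he0)) L
  have h3 := mass_C hcls.toCls (v'_le D)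
  have e2 : 2 * lam1 q s r / (2 * q.lam s r) = lam1 q s r / q.lam s r := by
    rw [mul_div_mul_left _ _ (by norm_num : (2 : ℝ) ≠ 0)]
  rw [e2] at h2
  generalize ∑ x1 ∈ iv K (cx K x).1, H64.NB K L (∑ z ∈ iv K (cx K x).2.2, nsq (v' x1 z))
      (2 * lam1 q s r) (Th1 (q.lam s r) K (cx K x).2.1 u x1)
      (Th1 (q.lam s r) K (cx K x).2.1 u x1) E δ = Sa at *
  generalize ∑ x1 ∈ iv K (cx K x).1, ∑ z ∈ iv K (cx K x).2.2, nsq (v' x1 z) = Sb at *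
  have f2 : Sa ≤ s * 8 ^ K * (δ + ((q.t / r) ^ (-(12 : ℝ)) * E / δ +
      (q.t / r) ^ (-(12 : ℝ)) * (1 + 1 / δ) / 2 ^ L)) :=
    h2.trans (mul_le_mul_of_nonneg_left (add_le_add le_rfl f1) (by positivity))
  generalize (q.t / r) ^ (-(12 : ℝ)) * E / δ +
      (q.t / r) ^ (-(12 : ℝ)) * (1 + 1 / δ) / 2 ^ L = G at *
  calc 3 * (13824 * ez * (1 + (L : ℝ)) ^ 3 * Sa + 2 * ez * (2 ^ K * E * Sb))
      ≤ 3 * (13824 * ez * (1 + (L : ℝ)) ^ 3 * (s * 8 ^ K * (δ + G)) +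
        2 * ez * (2 ^ K * E * (s * 4 ^ K))) := by
        refine mul_le_mul_of_nonneg_left (add_le_add ?_ ?_) (by norm_num)
        · exact mul_le_mul_of_nonneg_left f2 (by positivity)
        · exact mul_le_mul_of_nonneg_left (mul_le_mul_of_nonneg_left h3 (by positivity))
            (by positivity)
    _ = _ := by
        rw [h8]
        ring

/-- **The raw numbers of the field `q`.** -/
theorem q_raw (D : FDs q n ez F1 F2 F3 K x s r U g u v A b C Q1 Q2 Q3 v') {κ0 : ℝ}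
    (hcls : ClsM K x s r (q.L * q.t ^ (2 - q.c) * √s) κ0 U g u v)
    (ho : o = 1 ∨ o = -1) (hKn : K ≤ n) (ht : 0 < q.t) (ht1 : q.t ≤ 1) (hL : 1 ≤ q.L)
    (hs : 0 < s) (hr : 1 ≤ r) (hez : 0 ≤ ez) (he0 : 0 ≤ q.e0) (hE : 0 < E)
    (hS : SlotN (q.al U K) o K (cx K x) (q.lam s r) u R κ E) (hκ : 0 ≤ κ) (h : ℤ) :
    Raw 3 12 12 (cB 3 (41472 * q.L)) (q.t ^ (-q.c)) (q.t / r) q.e0 κ E (ez * s * 8 ^ K)
      (TQ K (cx K x) R C h) := by
  have hr0 : 0 < r := by linarith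
  have hy : 0 < q.t / r := div_pos ht hr0
  have y12 : 0 < (q.t / r) ^ (-(12 : ℝ)) := Real.rpow_pos_of_pos hy _
  have hκ1 : 1 ≤ (1 + κ) ^ 2 := one_le_pow₀ (by linarith)
  have hD0 : 0 ≤ ez * s * 8 ^ K := by positivity
  have hG : 0 ≤ q.t ^ (-q.c) * (q.t / r) ^ q.e0 :=
    mul_nonneg (Real.rpow_pos_of_pos ht _).le (Real.rpow_pos_of_pos hy _).le
  refine raw_B (by linarith) (Real.rpow_pos_of_pos ht _).le hy hE.le hD0 (fun L => ?_)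
    fun L δ hδ => ?_
  · refine (q_blind D hcls ho hKn ht ht1 hL hs hr hez he0 hS h L).trans
      (mul_le_mul_of_nonneg_left ?_ hD0)
    have h1 := num_b (L := (L : ℝ)) (Lq := q.L) (k := (1 + κ) ^ 2) (Nat.cast_nonneg L) hL hG
      (by positivity : 0 ≤ (q.t / r) ^ (-(12 : ℝ)) / 2 ^ L) hκ1
    refine h1.trans (le_of_eq ?_)
    rw [mul_div_assoc]
  · refine (q_signed D hcls ho hKn ht ht1 hs hr hez he0 hE hS h L hδ).trans
      (mul_le_mul_of_nonneg_left ?_ hD0)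
    have h1 := num_s (L := (L : ℝ)) (Lq := q.L) (k := (1 + κ) ^ 2) (Nat.cast_nonneg L) hL hδ.le
      (by positivity : 0 ≤ (q.t / r) ^ (-(12 : ℝ)) * E / δ)
      (by positivity : 0 ≤ (q.t / r) ^ (-(12 : ℝ)) * (1 + 1 / δ) / 2 ^ L) hE.le hκ1
    refine h1.trans (le_of_eq ?_)
    ring

end fd

end

end Vale.Agent.P141.H876.QR
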