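import Vale.Agent.P141.H841.Lay
import Vale.Agent.P141.H690.QTie

/-!
# P141, line (A): the window and the weights of the shifted slot

Letters of `H841.Lay`.

* `wn` : the five roots of the third tree, `En` : the energy of a layer over the window;
* `wt_Nn` : a weighted sum over `x₀` of the squares of a layer;
* `En_sum` : the energies of all the layers, `En_th` : the energy by the norms of the matrices.
-/

namespace Vale.Agent.P141.H876

open Finset Matrix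
open Vale.Agent.P141.PL (iv ix hs mem_iv ix_ix card_iv)
open Vale.Agent.P141.H922 (ck iv_iv tsum_iv biU_sum)
open Vale.Agent.P141.H43 (avv nsq nsq_nonneg)
open Vale.Agent.P141.H841 (Nn Nn_nonneg ix_bd)
open Vale.Agent.P141.H420 (Tr)

noncomputable section

variable {ι : Type*} [Fintype ι]

/-- the five roots of the third tree -/
def wn (n : ℕ) (T x1 M3 : ℤ) : Finset ℤ := Icc (-(T + ix n x1 + M3) - 4) (-(T + ix n x1 + M3))

theorem card_wn (n : ℕ) (T x1 M3 : ℤ) : ((wn n T x1 M3).card : ℝ) = 5 := by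
  unfold wn
  rw [Int.card_Icc]
  have : -(T + ix n x1 + M3) + 1 - (-(T + ix n x1 + M3) - 4) = 5 := by ring
  rw [this]
  have h2 : Int.toNat 5 = 5 := rfl
  rw [h2]
  norm_num

/-- the energy of the layer `i` over the window -/
def En (Mx : ℕ → ℤ → Matrix ι ι ℝ) (n : ℕ) (T x1 M3 : ℤ) (i : ℕ) (w : ι → ℝ) : ℝ :=
  2 ^ i * ∑ R ∈ wn n T x1 M3, ∑ m ∈ iv (n - i) R, nsq (Mx i m *ᵥ w)

variable {Mx : ℕ → ℤ → Matrix ι ι ℝ} {o x1 T M3 : ℤ} {n : ℕ}

theorem En_nonneg (i : ℕ) (w : ι → ℝ) : 0 ≤ En Mx n T x1 M3 i w :=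
  mul_nonneg (by positivity) (sum_nonneg fun _ _ => sum_nonneg fun _ _ => nsq_nonneg _)

/-- points at distance at most one cell of a finer scale -/
theorem near_root {k : ℕ} (hk : k ≤ n) {p y : ℤ} (h1 : y - 2 ^ k ≤ p) (h2 : p ≤ y + 2 ^ k) :
    ix n y - 1 ≤ ix n p ∧ ix n p ≤ ix n y + 1 := by
  have hle : (2 : ℤ) ^ k ≤ 2 ^ n := pow_le_pow_right₀ (by norm_num) hk
  have hp : (0 : ℤ) < 2 ^ n := by positivity
  obtain ⟨a1, a2⟩ := ix_bd n p
  obtain ⟨b1, b2⟩ := ix_bd n y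
  set P : ℤ := 2 ^ n
  constructor
  · by_contra h
    have h3 : ix n p + 2 ≤ ix n y := by omega
    have h4 : P * (ix n p + 2) ≤ P * ix n y := mul_le_mul_of_nonneg_left h3 hp.le
    linarith
  · by_contra h
    have h3 : ix n y + 2 ≤ ix n p := by omega
    have h4 : P * (ix n y + 2) ≤ P * ix n p := mul_le_mul_of_nonneg_left h3 hp.le
    linarith

/-- the tied cell is in the window -/
theorem tie_mem (ho : o = 1 ∨ o = -1) {i : ℕ} (hi : i ≤ n) {p j : ℤ}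
    (h1 : M3 - 1 ≤ ix n p) (h2 : ix n p ≤ M3 + 1) (hj : j ∈ iv (n - i) T) :
    ix (n - i) (ck o x1 p i - j) ∈ wn n T x1 M3 := by
  rw [mem_iv] at hj
  have e1 : ix (n - i) (ix i x1) = ix n x1 := by rw [ix_ix, Nat.add_sub_cancel' hi]
  have e3 : ix (n - i) (ix i p) = ix n p := by rw [ix_ix, Nat.add_sub_cancel' hi]
  obtain ⟨a1, a2⟩ := ix_bd (n - i) j
  obtain ⟨b1, b2⟩ := ix_bd (n - i) (ix i x1)
  obtain ⟨c1, c2⟩ := ix_bd (n - i) (ix i p)
  obtain ⟨d1, d2⟩ := ix_bd (n - i) (ck o x1 p i - j)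
  rw [hj] at a1 a2
  rw [e1] at b1 b2
  rw [e3] at c1 c2
  have hp : (0 : ℤ) < 2 ^ (n - i) := by positivity
  set P : ℤ := 2 ^ (n - i)
  set q := ix (n - i) (ck o x1 p i - j)
  have hm : ck o x1 p i - j ≤ -1 - (j + ix i x1 + ix i p) := by
    unfold H922.ck
    rcases ho with rfl | rfl <;> linarith
  have hm' : -3 - (j + ix i x1 + ix i p) ≤ ck o x1 p i - j := by
    unfold H922.ck
    rcases ho with rfl | rfl <;> linarith
  unfold wn
  rw [mem_Icc]
  have k1 : q + (T + ix n x1 + ix n p) < 0 := by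
    by_contra h
    have h3 : 0 ≤ P * (q + (T + ix n x1 + ix n p)) := mul_nonneg hp.le (by omega)
    have h4 : P * (q + (T + ix n x1 + ix n p)) = P * q + P * T + P * ix n x1 + P * ix n p := by ring
    linarith
  have k2 : -4 < q + (T + ix n x1 + ix n p) := by
    by_contra h
    have h3 : P * (q + (T + ix n x1 + ix n p) + 4) ≤ 0 :=
      mul_nonpos_of_nonneg_of_nonpos hp.le (by omega)
    have h4 : P * (q + (T + ix n x1 + ix n p) + 4) =
      P * q + P * T + P * ix n x1 + P * ix n p + 4 * P := by ring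
    linarith
  constructor <;> linarith

/-- the sum of the weights over a cell -/
theorem wt_cell {W : ℤ → ℝ} {e : ℝ} {k : ℕ} (hW0 : ∀ x, 0 ≤ W x)
    (hW : ∀ j, ∑ x ∈ iv k j, W x ≤ e * 2 ^ k) (i : ℕ) (j : ℤ) :
    ∑ x ∈ iv i j, W x ≤ e * 2 ^ (k - i) * 2 ^ i := by
  rcases le_total i k with h | h
  · have e1 : (2 : ℝ) ^ (k - i) * 2 ^ i = 2 ^ k := by rw [← pow_add, Nat.sub_add_cancel h]
    rw [mul_assoc, e1]
    refine le_trans ?_ (hW (ix (k - i) j))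
    refine sum_le_sum_of_subset_of_nonneg (fun x hx => ?_) fun x _ _ => hW0 x
    rw [mem_iv] at hx ⊢
    rw [← hx, ix_ix, Nat.add_sub_cancel' h]
  · have e1 : k - i = 0 := by omega
    rw [e1, pow_zero, mul_one, ← iv_iv h]
    refine (sum_le_sum fun a _ => hW a).trans (le_of_eq ?_)
    rw [sum_const, card_iv, nsmul_eq_mul]
    push_cast
    have e2 : (2 : ℝ) ^ (i - k) * 2 ^ k = 2 ^ i := by rw [← pow_add, Nat.sub_add_cancel h]
    calc (2 : ℝ) ^ (i - k) * (e * 2 ^ k) = e * (2 ^ (i - k) * 2 ^ k) := by ring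
      _ = e * 2 ^ i := by rw [e2]

/-- **A weighted sum over `x₀` of the squares of a layer.** -/
theorem wt_Nn (ho : o = 1 ∨ o = -1) {W : ℤ → ℝ} {e : ℝ} {k : ℕ} (hW0 : ∀ x, 0 ≤ W x)
    (hW : ∀ j, ∑ x ∈ iv k j, W x ≤ e * 2 ^ k) {i : ℕ} (hi : i ≤ n) {p : ℤ}
    (h1 : M3 - 1 ≤ ix n p) (h2 : ix n p ≤ M3 + 1) (w : ι → ℝ) :
    ∑ x0 ∈ iv n T, W x0 * Nn Mx o x1 i x0 p w ≤ e * 2 ^ (k - i) * En Mx n T x1 M3 i w := by
  classical
  have he : 0 ≤ e * 2 ^ (k - i) := by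
    have h3 := (sum_nonneg fun x _ => hW0 x).trans (hW 0)
    have h4 : (0 : ℝ) < 2 ^ k := by positivity
    have h5 : 0 ≤ e := by
      by_contra h
      have := mul_neg_of_neg_of_pos (not_le.1 h) h4
      linarith
    positivity
  set f : ℤ → ℝ := fun m => nsq (Mx i m *ᵥ w) with hf
  rw [← iv_iv hi]
  have e1 : ∀ j ∈ iv (n - i) T, ∑ x0 ∈ iv i j, W x0 * Nn Mx o x1 i x0 p w ≤
      e * 2 ^ (k - i) * (2 ^ i * f (ck o x1 p i - j)) := by
    intro j _
    have e2 : ∑ x0 ∈ iv i j, W x0 * Nn Mx o x1 i x0 p w =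
        (∑ x0 ∈ iv i j, W x0) * f (ck o x1 p i - j) := by
      rw [sum_mul]
      refine sum_congr rfl fun x hx => ?_
      rw [mem_iv] at hx
      unfold H841.Nn
      rw [hx]
    rw [e2, ← mul_assoc]
    exact mul_le_mul_of_nonneg_right (wt_cell hW0 hW i j) (nsq_nonneg _)
  refine (sum_le_sum e1).trans ?_
  rw [← mul_sum, ← mul_sum]
  refine mul_le_mul_of_nonneg_left (mul_le_mul_of_nonneg_left ?_ (by positivity)) he
  rw [biU_sum]
  have e3 : ∑ j ∈ iv (n - i) T, f (ck o x1 p i - j) =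
      ∑ m ∈ (iv (n - i) T).image (fun j => ck o x1 p i - j), f m := by
    rw [sum_image]
    intro a _ b _ hab
    simpa using hab
  rw [e3]
  refine sum_le_sum_of_subset_of_nonneg (fun m hm => ?_) fun m _ _ => nsq_nonneg _
  obtain ⟨j, hj, rfl⟩ := mem_image.1 hm
  rw [mem_biUnion]
  exact ⟨_, tie_mem ho hi h1 h2 hj, mem_iv.2 rfl⟩

/-- **The energies of all the layers.** -/
theorem En_sum [DecidableEq ι] {l : ℝ} {G K : ℕ → ℤ → Matrix ι ι ℝ} (h : Tr l n G K)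
    (hM : ∀ k m a, Mx k m *ᵥ a = H483.mT l K k m a) (w : ι → ℝ) :
    ∑ i ∈ range n, En Mx n T x1 M3 (i + 1) w ≤ 5 * 2 ^ n * nsq w := by
  have e1 : ∑ i ∈ range n, En Mx n T x1 M3 (i + 1) w = ∑ i ∈ Icc 1 n, En Mx n T x1 M3 i w := by
    rw [range_eq_Ico, sum_Ico_add' (fun i => En Mx n T x1 M3 i w) 0 n 1]
    rfl
  rw [e1]
  unfold En
  simp only [mul_sum]
  rw [sum_comm]
  have e2 : ∀ R ∈ wn n T x1 M3, ∑ i ∈ Icc 1 n, ∑ m ∈ iv (n - i) R, 2 ^ i * nsq (Mx i m *ᵥ w) ≤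
      2 ^ n * nsq w := by
    intro R _
    have h1 := H690.MX_sum_le' h w le_rfl R
    have h2 := tsum_iv (fun j i => (H690.MX l K j i *ᵥ w) ⬝ᵥ (H690.MX l K j i *ᵥ w)) n R
    have h3 := mul_le_mul_of_nonneg_left h1 (by positivity : (0 : ℝ) ≤ 2 ^ n)
    rw [h2] at h3
    refine le_trans (le_of_eq (sum_congr rfl fun i _ => ?_)) h3
    rw [mul_sum]
    refine sum_congr rfl fun m _ => ?_
    rw [hM, H690.MX_mulVec]
    rfl
  refine (sum_le_sum e2).trans (le_of_eq ?_)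
  rw [sum_const, nsmul_eq_mul, card_wn]
  ring

/-- **The energies of all the layers, with the mass of the top matrix.** -/
theorem En_sumQ [DecidableEq ι] {l : ℝ} {G K : ℕ → ℤ → Matrix ι ι ℝ} (h : Tr l n G K)
    (hM : ∀ k m a, Mx k m *ᵥ a = H483.mT l K k m a) (w : ι → ℝ) :
    ∑ i ∈ range n, En Mx n T x1 M3 (i + 1) w ≤
      2 ^ n * ((2 * l)⁻¹ * ∑ R ∈ wn n T x1 M3, w ⬝ᵥ G n R *ᵥ w) := by
  have e1 : ∑ i ∈ range n, En Mx n T x1 M3 (i + 1) w = ∑ i ∈ Icc 1 n, En Mx n T x1 M3 i w := by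
    rw [range_eq_Ico, sum_Ico_add' (fun i => En Mx n T x1 M3 i w) 0 n 1]
    rfl
  rw [e1]
  unfold En
  simp only [mul_sum]
  rw [sum_comm]
  refine sum_le_sum fun R _ => ?_
  have h1 := H922.xi_tree' h w le_rfl R
  have h2 := tsum_iv (fun j i => H483.xiT l K w j i ⬝ᵥ H483.xiT l K w j i) n R
  have h3 := mul_le_mul_of_nonneg_left h1 (by positivity : (0 : ℝ) ≤ 2 ^ n)
  rw [h2] at h3
  refine le_trans (le_of_eq (sum_congr rfl fun i _ => ?_)) h3
  rw [mul_sum]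
  refine sum_congr rfl fun m _ => ?_
  rw [hM]
  rfl

/-- the energy of a layer by the norms of the matrices -/
theorem En_th {θ : ℕ → ℤ → ℝ} (hθ : ∀ k m a, nsq (Mx k m *ᵥ a) ≤ θ k m * nsq a) (i : ℕ)
    (w : ι → ℝ) : En Mx n T x1 M3 i w ≤
      (2 ^ i * ∑ R ∈ wn n T x1 M3, ∑ m ∈ iv (n - i) R, θ i m) * nsq w := by
  unfold En
  rw [mul_assoc, sum_mul]
  refine mul_le_mul_of_nonneg_left (sum_le_sum fun R _ => ?_) (by positivity)
  rw [sum_mul]
  exact sum_le_sum fun m _ => hθ _ _ _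

end

end Vale.Agent.P141.H876
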